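import Mathlib

/-! # Power series rings over complete local rings are complete -/

namespace Vale.Agent.P022D.CA.Cpl

open MvPowerSeries IsLocalRing

section

variable {σ V : Type} [CommRing V] [Fintype σ]

/-- power series whose coefficient in degree `m` lies in `I ^ (n - |m|)`. -/
def JI (σ : Type) (I : Ideal V) (n : ℕ) : Ideal (MvPowerSeries σ V) where
  carrier := {f | ∀ m : σ →₀ ℕ, coeff m f ∈ I ^ (n - m.degree)}
  zero_mem' := fun m => by rw [map_zero]; exact Ideal.zero_mem _
  add_mem' := fun {a b} ha hb m => by rw [map_add]; exact Ideal.add_mem _ (ha m) (hb m)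
  smul_mem' := fun c f hf m => by
    classical
    rw [smul_eq_mul, coeff_mul]
    refine Ideal.sum_mem _ fun ab hab => ?_
    rw [Finset.HasAntidiagonal.mem_antidiagonal] at hab
    have hb : ab.2.degree ≤ m.degree := by
      rw [← hab, map_add]; exact Nat.le_add_left _ _
    exact Ideal.mul_mem_left _ _ (Ideal.pow_le_pow_right (by omega) (hf ab.2))

omit [Fintype σ] in
theorem mem_JI {I : Ideal V} {n : ℕ} {f : MvPowerSeries σ V} :
    f ∈ JI σ I n ↔ ∀ m : σ →₀ ℕ, coeff m f ∈ I ^ (n - m.degree) := Iff.rfl

omit [Fintype σ] in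
theorem JI_mul (I : Ideal V) (a b : ℕ) : JI σ I a * JI σ I b ≤ JI σ I (a + b) := by
  classical
  rw [Ideal.mul_le]
  intro f hf g hg m
  rw [coeff_mul]
  refine Ideal.sum_mem _ fun uv huv => ?_
  rw [Finset.HasAntidiagonal.mem_antidiagonal] at huv
  have hd : uv.1.degree + uv.2.degree = m.degree := by rw [← map_add, huv]
  have h1 := Ideal.mul_mem_mul (hf uv.1) (hg uv.2)
  rw [← pow_add] at h1
  exact Ideal.pow_le_pow_right (by omega) h1

theorem exists_decompV (f : MvPowerSeries σ V) (hf : constantCoeff f = 0) :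
    ∃ g : σ → MvPowerSeries σ V, f = ∑ s, X s * g s ∧
      ∀ (I : Ideal V) (n : ℕ), f ∈ JI σ I (n + 1) → ∀ s, g s ∈ JI σ I n := by
  classical
  have hc : ∀ m : σ →₀ ℕ, ∃ s : Option σ, (m ≠ 0 → ∃ t, s = some t ∧ m t ≠ 0) := by
    intro m
    by_cases h : m = 0
    · exact ⟨none, fun h' => absurd h h'⟩
    · obtain ⟨t, ht⟩ := Finsupp.ne_iff.mp h
      exact ⟨some t, fun _ => ⟨t, rfl, by simpa only [ne_eq, Finsupp.coe_zero, Pi.zero_apply] using ht⟩⟩
  choose c hc using hc
  let g : σ → MvPowerSeries σ V := fun s m =>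
    if c (m + Finsupp.single s 1) = some s then coeff (m + Finsupp.single s 1) f else 0
  have hg : ∀ s m, coeff m (g s) =
      if c (m + Finsupp.single s 1) = some s then coeff (m + Finsupp.single s 1) f else 0 :=
    fun s m => rfl
  refine ⟨g, ?_, ?_⟩
  · ext m
    rw [map_sum]
    have h1 : ∀ s, coeff m (X s * g s) = if c m = some s ∧ m s ≠ 0 then coeff m f else 0 := by
      intro s
      rw [show (X s : MvPowerSeries σ V) = monomial (Finsupp.single s 1) 1 from rfl,
        coeff_monomial_mul]
      by_cases h : m s = 0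
      · have h2 : ¬ Finsupp.single s 1 ≤ m := by
          intro h3
          have := h3 s
          rw [Finsupp.single_eq_same, h] at this
          omega
        rw [if_neg h2, if_neg (fun h3 => h3.2 h)]
      · have h2 : Finsupp.single s 1 ≤ m := by
          rw [Finsupp.single_le_iff]
          omega
        rw [if_pos h2, one_mul, hg, tsub_add_cancel_of_le h2]
        simp only [ne_eq, h, not_false_eq_true, and_true]
    simp only [h1]
    by_cases hm : m = 0
    · subst hm
      have : coeff 0 f = 0 := hf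
      simp only [this, Finsupp.coe_zero, Pi.zero_apply, ne_eq, not_true_eq_false, and_false, ↓reduceIte, Finset.sum_const_zero]
    · obtain ⟨t, ht1, ht2⟩ := hc m hm
      rw [Finset.sum_eq_single t]
      · rw [if_pos ⟨ht1, ht2⟩]
      · intro s _ hs
        rw [if_neg]
        rintro ⟨h3, -⟩
        rw [ht1] at h3
        exact hs (Option.some.inj h3).symm
      · intro h; exact absurd (Finset.mem_univ t) h
  · intro I n hn s m
    rw [hg]
    split_ifs
    · have h2 := hn (m + Finsupp.single s 1)
      rw [map_add, Finsupp.degree_single] at h2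
      have h3 : n + 1 - (m.degree + 1) = n - m.degree := by omega
      rwa [h3] at h2
    · exact Ideal.zero_mem _

variable [IsLocalRing V]

omit [Fintype σ] in
theorem mem_max_iff (f : MvPowerSeries σ V) :
    f ∈ maximalIdeal (MvPowerSeries σ V) ↔ constantCoeff f ∈ maximalIdeal V := by
  rw [IsLocalRing.mem_maximalIdeal, mem_nonunits_iff, MvPowerSeries.isUnit_iff_constantCoeff,
    IsLocalRing.mem_maximalIdeal, mem_nonunits_iff]

omit [Fintype σ] in
theorem max_le_JI : maximalIdeal (MvPowerSeries σ V) ≤ JI σ (maximalIdeal V) 1 := by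
  intro f hf m
  rw [mem_max_iff] at hf
  by_cases h : m = 0
  · subst h
    simpa using hf
  · have : 1 - m.degree = 0 := by
      have : m.degree ≠ 0 := fun h' => h ((Finsupp.degree_eq_zero_iff m).1 h')
      omega
    rw [this, pow_zero, Ideal.one_eq_top]
    exact Submodule.mem_top

omit [Fintype σ] in
theorem pow_le_JI (n : ℕ) :
    maximalIdeal (MvPowerSeries σ V) ^ n ≤ JI σ (maximalIdeal V) n := by
  induction n with
  | zero =>
    intro f _ m
    rw [Nat.zero_sub, pow_zero, Ideal.one_eq_top]
    exact Submodule.mem_top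
  | succ n ih =>
    rw [pow_succ]
    exact (Ideal.mul_mono ih max_le_JI).trans (JI_mul _ n 1)

omit [Fintype σ] in
theorem C_mem_pow {a : V} {n : ℕ} (h : a ∈ maximalIdeal V ^ n) :
    (C a : MvPowerSeries σ V) ∈ maximalIdeal (MvPowerSeries σ V) ^ n := by
  have h1 : (maximalIdeal V).map (C : V →+* MvPowerSeries σ V) ≤
      maximalIdeal (MvPowerSeries σ V) := by
    rw [Ideal.map_le_iff_le_comap]
    intro x hx
    rw [Ideal.mem_comap, mem_max_iff, constantCoeff_C]
    exact hx
  have h2 : (maximalIdeal V ^ n).map (C : V →+* MvPowerSeries σ V) ≤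
      maximalIdeal (MvPowerSeries σ V) ^ n := by
    rw [Ideal.map_pow]
    exact Ideal.pow_right_mono h1 n
  exact h2 (Ideal.mem_map_of_mem _ h)

theorem JI_le_pow (n : ℕ) :
    JI σ (maximalIdeal V) n ≤ maximalIdeal (MvPowerSeries σ V) ^ n := by
  induction n with
  | zero => rw [pow_zero, Ideal.one_eq_top]; exact le_top
  | succ n ih =>
    intro f hf
    have h0 : constantCoeff (f - C (constantCoeff f)) = 0 := by
      rw [map_sub, constantCoeff_C, sub_self]
    have h1 : constantCoeff f ∈ maximalIdeal V ^ (n + 1) := by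
      have := hf 0
      rw [map_zero, Nat.sub_zero] at this
      exact this
    have h2 : f - C (constantCoeff f) ∈ JI σ (maximalIdeal V) (n + 1) := by
      refine Ideal.sub_mem _ hf (pow_le_JI _ (C_mem_pow h1))
    obtain ⟨g, hg1, hg2⟩ := exists_decompV _ h0
    have h3 : f = C (constantCoeff f) + ∑ s, X s * g s := by rw [← hg1]; ring
    rw [h3]
    refine Ideal.add_mem _ (C_mem_pow h1) (Ideal.sum_mem _ fun s _ => ?_)
    rw [pow_succ']
    refine Ideal.mul_mem_mul ?_ (ih (hg2 _ n h2 s))
    rw [mem_max_iff, constantCoeff_X]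
    exact Ideal.zero_mem _

theorem isAdicCompleteV [IsNoetherianRing V] (hV : IsAdicComplete (maximalIdeal V) V) :
    IsAdicComplete (maximalIdeal (MvPowerSeries σ V)) (MvPowerSeries σ V) := by
  have hN : IsNoetherianRing (MvPowerSeries σ V) := inferInstance
  refine { prec' := ?_ }
  intro f hf
  have h1 : ∀ {m n : ℕ}, m ≤ n → f m - f n ∈ JI σ (maximalIdeal V) m := by
    intro m n hmn
    have := SModEq.sub_mem.mp (hf hmn)
    rw [smul_eq_mul, Ideal.mul_top] at this
    exact pow_le_JI m this
  have h2 : ∀ m : σ →₀ ℕ, ∃ L : V, ∀ n,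
      coeff m (f (n + m.degree)) ≡ L [SMOD (maximalIdeal V ^ n • ⊤ : Submodule V V)] := by
    intro m
    refine hV.prec' (fun n => coeff m (f (n + m.degree))) ?_
    intro a b hab
    rw [SModEq.sub_mem, smul_eq_mul, Ideal.mul_top, ← map_sub]
    have h3 := h1 (m := a + m.degree) (n := b + m.degree) (by omega) m
    rwa [Nat.add_sub_cancel] at h3
  choose L hL using h2
  let Lf : MvPowerSeries σ V := fun m => L m
  have hLc : ∀ m, coeff m Lf = L m := fun m => rfl
  refine ⟨Lf, fun n => ?_⟩
  rw [SModEq.sub_mem, smul_eq_mul, Ideal.mul_top]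
  apply JI_le_pow
  intro m
  rw [map_sub, hLc]
  by_cases hmn : m.degree ≤ n
  · have h3 := hL m (n - m.degree)
    rw [Nat.sub_add_cancel hmn, SModEq.sub_mem, smul_eq_mul, Ideal.mul_top] at h3
    exact h3
  · have : n - m.degree = 0 := by omega
    rw [this, pow_zero, Ideal.one_eq_top]
    exact Submodule.mem_top

omit [Fintype σ] in
theorem residue_surj (f : MvPowerSeries σ V) :
    f - C (constantCoeff f) ∈ maximalIdeal (MvPowerSeries σ V) := by
  rw [mem_max_iff, map_sub, constantCoeff_C, sub_self]
  exact Ideal.zero_mem _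

omit [Fintype σ] in
theorem finite_residue [Finite (ResidueField V)] : Finite (ResidueField (MvPowerSeries σ V)) := by
  refine Finite.of_surjective (fun a : ResidueField V =>
    residue (MvPowerSeries σ V) (C (Function.surjInv (residue_surjective (R := V)) a))) ?_
  intro y
  obtain ⟨f, rfl⟩ := residue_surjective y
  refine ⟨residue V (constantCoeff f), ?_⟩
  refine Ideal.Quotient.eq.2 ?_
  rw [mem_max_iff, map_sub, constantCoeff_C]
  exact Ideal.Quotient.eq.1 (Function.surjInv_eq (residue_surjective (R := V)) _)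

end

end Vale.Agent.P022D.CA.Cpl
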