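import Vale.Agent.P298.H25.CM

/-!
# Depth and dimension of quotients `A ⧸ I` of a Noetherian local ring
-/

universe u

open RingTheory.Sequence IsLocalRing Pointwise Module

namespace Vale.Agent.P022D.CA

open Vale.Agent.P298.H25

section dim

variable {A : Type u} [CommRing A]

theorem dimGE_mono {I J : Ideal A} (h : I ≤ J) {k : ℕ}
    (hk : (k : WithBot ℕ∞) ≤ ringKrullDim (A ⧸ J)) :
    (k : WithBot ℕ∞) ≤ ringKrullDim (A ⧸ I) :=
  hk.trans (ringKrullDim_le_of_surjective (Ideal.Quotient.factor h)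
    (Ideal.Quotient.factor_surjective h))

theorem dimGE_prime {I : Ideal A} {k : ℕ} (hk : (k : WithBot ℕ∞) ≤ ringKrullDim (A ⧸ I)) :
    ∃ P : Ideal A, P.IsPrime ∧ I ≤ P ∧ (k : WithBot ℕ∞) ≤ ringKrullDim (A ⧸ P) := by
  rw [ringKrullDim_quotient, Order.le_krullDim_iff] at hk
  obtain ⟨l, hl⟩ := hk
  refine ⟨l.head.1.asIdeal, l.head.1.2, l.head.2, ?_⟩
  rw [ringKrullDim_quotient, Order.le_krullDim_iff]
  refine ⟨⟨l.length, fun i => ⟨(l i).1, ?_⟩, fun i => l.step i⟩, hl⟩
  have h1 : l.head ≤ l i := l.monotone (Fin.zero_le i)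
  exact h1

theorem dimGE_succ {Q P : Ideal A} (hQ : Q.IsPrime) (h : Q < P) {k : ℕ}
    (hk : (k : WithBot ℕ∞) ≤ ringKrullDim (A ⧸ P)) :
    ((k + 1 : ℕ) : WithBot ℕ∞) ≤ ringKrullDim (A ⧸ Q) := by
  rw [ringKrullDim_quotient, Order.le_krullDim_iff] at hk ⊢
  obtain ⟨l, hl⟩ := hk
  let l' : LTSeries (PrimeSpectrum.zeroLocus (R := A) (Q : Set A)) :=
    ⟨l.length, fun i => ⟨(l i).1, Set.Subset.trans h.le (l i).2⟩, fun i => l.step i⟩
  let q : PrimeSpectrum.zeroLocus (R := A) (Q : Set A) := ⟨⟨Q, hQ⟩, Set.Subset.rfl⟩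
  have hq : q < l'.head := by
    have h1 : P ≤ l.head.1.asIdeal := l.head.2
    have h2 : Q < l.head.1.asIdeal := lt_of_lt_of_le h h1
    exact h2
  refine ⟨l'.cons q hq, ?_⟩
  rw [RelSeries.cons_length]
  exact congrArg (· + 1) hl

theorem nat_le_of_dim {x : WithBot ℕ∞} {k c n : ℕ} (h1 : (k : WithBot ℕ∞) ≤ x)
    (h2 : x + c ≤ n) : k + c ≤ n := by
  have h3 : (k : WithBot ℕ∞) + c ≤ n := le_trans (by gcongr) h2
  exact_mod_cast h3

theorem dim_le_of_not {x : WithBot ℕ∞} {k : ℕ} (h : ¬ ((k + 1 : ℕ) : WithBot ℕ∞) ≤ x) :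
    x ≤ k := by
  induction x using WithBot.recBotCoe with
  | bot => exact bot_le
  | coe x =>
    induction x using ENat.recTopCoe with
    | top => exact absurd (WithBot.coe_le_coe.2 le_top) h
    | coe x =>
      have h1 : ¬ (k + 1 ≤ x) := fun h2 => h (by exact_mod_cast h2)
      have h2 : x ≤ k := by omega
      exact_mod_cast h2

/-- `(A ⧸ I) ⧸ x` is `A ⧸ (I + x)`. -/
noncomputable def quotEquiv (I : Ideal A) (x : A) :
    QuotSMulTop x (A ⧸ I) ≃ₗ[A] A ⧸ (I ⊔ Ideal.span {x}) :=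
  (Submodule.quotEquivOfEq _ (Submodule.map (Submodule.mkQ I) (Ideal.span {x})) (by
    rw [← Submodule.ideal_span_singleton_smul]
    ext y
    obtain ⟨y, rfl⟩ := Submodule.Quotient.mk_surjective _ y
    constructor
    · intro hy
      rw [Submodule.ideal_span_singleton_smul] at hy
      obtain ⟨z, -, hz⟩ := (Submodule.mem_smul_pointwise_iff_exists _ _ _).1 hy
      obtain ⟨z, rfl⟩ := Submodule.Quotient.mk_surjective _ z
      exact ⟨x * z, Ideal.mul_mem_right _ _ (Ideal.mem_span_singleton_self x), hz⟩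
    · rintro ⟨z, hz, hzy⟩
      obtain ⟨w, rfl⟩ := Ideal.mem_span_singleton'.1 hz
      rw [Submodule.ideal_span_singleton_smul, ← hzy, mul_comm]
      exact Submodule.smul_mem_pointwise_smul (Submodule.mkQ I w) x ⊤ trivial)).trans
    (Submodule.quotientQuotientEquivQuotientSup I (Ideal.span {x}))

theorem smulRegular_iff {I : Ideal A} {x : A} :
    IsSMulRegular (A ⧸ I) x ↔ ∀ a, x * a ∈ I → a ∈ I := by
  constructor
  · intro h a ha
    have h1 : x • (Ideal.Quotient.mk I a) = x • (0 : A ⧸ I) := by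
      rw [smul_zero]
      exact Ideal.Quotient.eq_zero_iff_mem.2 ha
    exact Ideal.Quotient.eq_zero_iff_mem.1 (h h1)
  · intro h a b hab
    obtain ⟨a, rfl⟩ := Ideal.Quotient.mk_surjective a
    obtain ⟨b, rfl⟩ := Ideal.Quotient.mk_surjective b
    change Ideal.Quotient.mk I (x * a) = Ideal.Quotient.mk I (x * b) at hab
    rw [Ideal.Quotient.eq, ← mul_sub] at hab
    rw [Ideal.Quotient.eq]
    exact h _ hab

theorem le_of_ass {I P : Ideal A} (hP : IsAssociatedPrime P (A ⧸ I)) : I ≤ P := by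
  have h := hP.annihilator_le
  rwa [Submodule.annihilator_top, Ideal.annihilator_quotient] at h

theorem exists_ass [IsNoetherianRing A] {I : Ideal A} {a : A} (ha : a ∉ I) :
    ∃ P, IsAssociatedPrime P (A ⧸ I) ∧ ∀ g, g * a ∈ I → g ∈ P := by
  obtain ⟨P, hP, hle⟩ := exists_le_isAssociatedPrime_of_isNoetherianRing A
    (Ideal.Quotient.mk I a) (fun h => ha (Ideal.Quotient.eq_zero_iff_mem.1 h))
  refine ⟨P, hP, fun g hg => hle ?_⟩
  rw [Submodule.mem_colon_singleton, Submodule.mem_bot]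
  exact Ideal.Quotient.eq_zero_iff_mem.2 hg

end dim

section loc

variable {A : Type u} [CommRing A] [IsLocalRing A] [IsNoetherianRing A]

theorem dimGE_sup {I : Ideal A} {x : A} (hx : x ∈ maximalIdeal A) {k : ℕ}
    (hk : ((k + 1 : ℕ) : WithBot ℕ∞) ≤ ringKrullDim (A ⧸ I)) :
    (k : WithBot ℕ∞) ≤ ringKrullDim (A ⧸ (I ⊔ Ideal.span {x})) := by
  have h1 := supportDim_le_supportDim_quotSMulTop_succ (M := A ⧸ I) hx
  rw [supportDim_eq_of_equiv (quotEquiv I x), supportDim_quotient_eq_ringKrullDim,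
    supportDim_quotient_eq_ringKrullDim] at h1
  cases k with
  | zero =>
    by_contra hcon
    have h2 : ringKrullDim (A ⧸ (I ⊔ Ideal.span {x})) = ⊥ := by
      induction hx' : ringKrullDim (A ⧸ (I ⊔ Ideal.span {x})) using WithBot.recBotCoe with
      | bot => rfl
      | coe y =>
        exact absurd (hx' ▸ WithBot.coe_le_coe.2 zero_le :
          ((0 : ℕ) : WithBot ℕ∞) ≤ ringKrullDim (A ⧸ (I ⊔ Ideal.span {x}))) hcon
    rw [h2, WithBot.bot_add] at h1
    exact absurd (hk.trans h1) (by simp)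
  | succ k =>
    by_contra hcon
    have h2 := dim_le_of_not hcon
    have h3 : ((k + 1 + 1 : ℕ) : WithBot ℕ∞) ≤ (k : WithBot ℕ∞) + 1 :=
      (hk.trans h1).trans (by gcongr)
    have h4 : k + 1 + 1 ≤ k + 1 := by exact_mod_cast h3
    omega

theorem dimGE_ofList (fs : List A) : ∀ {I : Ideal A} {k : ℕ}, (∀ f ∈ fs, f ∈ maximalIdeal A) →
    ((k + fs.length : ℕ) : WithBot ℕ∞) ≤ ringKrullDim (A ⧸ I) →
    (k : WithBot ℕ∞) ≤ ringKrullDim (A ⧸ (I ⊔ Ideal.ofList fs)) := by
  induction fs with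
  | nil =>
    intro I k _ h
    exact le_trans h (ringKrullDim_le_of_surjective
      (Ideal.Quotient.factor (by simp)) (Ideal.Quotient.factor_surjective _))
  | cons x fs ih =>
    intro I k hm h
    have h1 := ih (I := I ⊔ Ideal.span {x}) (k := k)
      (fun f hf => hm f (List.mem_cons_of_mem _ hf))
      (dimGE_sup (hm x List.mem_cons_self) h)
    refine dimGE_mono (le_of_eq ?_) h1
    rw [Ideal.ofList_cons, sup_assoc]

theorem depth_exists {M : Type u} [AddCommGroup M] [Module A M] [Module.Finite A M]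
    [Nontrivial M] {k : ℕ} (h : DepthGE A M k) :
    ∃ rs : List A, rs.length = k ∧ (∀ r ∈ rs, r ∈ maximalIdeal A) ∧ IsRegular M rs :=
  ModuleCat.exists_isRegular_of_exists_subsingleton_ext (maximalIdeal A) k
    (ModuleCat.of A M) smul_top_lt (ModuleCat.of A (A ⧸ maximalIdeal A))
    (by rw [Module.support_eq_zeroLocus, Ideal.annihilator_quotient]) h

theorem depth_congr {M N : Type u} [AddCommGroup M] [Module A M] [Module.Finite A M]
    [AddCommGroup N] [Module A N] [Nontrivial M] (e : M ≃ₗ[A] N) {k : ℕ}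
    (h : DepthGE A M k) : DepthGE A N k := by
  obtain ⟨rs, hlen, hm, hreg⟩ := depth_exists h
  have : Module.Finite A N := Module.Finite.equiv e
  have : Nontrivial N := e.symm.toEquiv.nontrivial
  rw [← hlen]
  exact DepthGE.of_isRegular hm ((e.isRegular_congr rs).1 hreg)

omit [IsNoetherianRing A] in
theorem depth_mono {M : Type u} [AddCommGroup M] [Module A M] {k l : ℕ} (hl : l ≤ k)
    (h : DepthGE A M k) : DepthGE A M l := fun i hi => h i (lt_of_lt_of_le hi hl)

theorem depth_step {I : Ideal A} (hI : I ≠ ⊤) {x : A} (hx : x ∈ maximalIdeal A) {k : ℕ}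
    (h : DepthGE A (A ⧸ I) (k + 1)) (hreg : ∀ a, x * a ∈ I → a ∈ I) :
    DepthGE A (A ⧸ (I ⊔ Ideal.span {x})) k := by
  have : Nontrivial (A ⧸ I) := Ideal.Quotient.nontrivial_iff.2 hI
  have : Nontrivial (QuotSMulTop x (A ⧸ I)) := nontrivial_quot hx
  exact depth_congr (quotEquiv I x) (h.quotSMulTop (smulRegular_iff.2 hreg))

theorem ass_dim {I P : Ideal A} {k : ℕ} (h : DepthGE A (A ⧸ I) k)
    (hP : IsAssociatedPrime P (A ⧸ I)) : (k : WithBot ℕ∞) ≤ ringKrullDim (A ⧸ P) := by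
  have h1 := h.le_supportDim hP
  rwa [supportDim_quotient_eq_ringKrullDim] at h1

/-- An element outside the primes of large dimension is regular. -/
theorem nzd_of_dim {I : Ideal A} {k : ℕ} (h : DepthGE A (A ⧸ I) k) {x : A}
    (hx : ¬ (k : WithBot ℕ∞) ≤ ringKrullDim (A ⧸ (I ⊔ Ideal.span {x}))) :
    ∀ a, x * a ∈ I → a ∈ I := by
  intro a ha
  by_contra hcon
  obtain ⟨P, hP, hle⟩ := exists_ass hcon
  refine hx (dimGE_mono ?_ (ass_dim h hP))
  exact sup_le (le_of_ass hP) ((Ideal.span_singleton_le_iff_mem _).2 (hle x ha))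

/-- An ideal with small quotient contains a regular element. -/
theorem exists_nzd {I J : Ideal A} {k : ℕ} (h : DepthGE A (A ⧸ I) k)
    (hJ : ¬ (k : WithBot ℕ∞) ≤ ringKrullDim (A ⧸ (I ⊔ J))) :
    ∃ x ∈ J, ∀ a, x * a ∈ I → a ∈ I := by
  by_contra hcon
  push Not at hcon
  have hsub : (J : Set A) ⊆ ⋃ P ∈ associatedPrimes A (A ⧸ I), ((id P : Ideal A) : Set A) := by
    intro x hx
    obtain ⟨a, ha, ha'⟩ := hcon x hx
    obtain ⟨P, hP, hle⟩ := exists_ass ha'
    exact Set.mem_biUnion (x := P) hP (hle x ha)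
  obtain ⟨P, hP, hle⟩ := (Ideal.subset_union_prime_finite
    (associatedPrimes.finite A (A ⧸ I)) (f := id) ⊤ ⊤ (fun P hP _ _ => hP.isPrime)).1 hsub
  exact hJ (dimGE_mono (sup_le (le_of_ass hP) hle) (ass_dim h hP))

/-- A part of a system of parameters is a regular sequence, and the quotient keeps its depth. -/
theorem depth_ofList (fs : List A) : ∀ {I : Ideal A} {k : ℕ}, I ≠ ⊤ →
    (∀ f ∈ fs, f ∈ maximalIdeal A) → DepthGE A (A ⧸ I) (k + fs.length) →
    ¬ ((k + 1 : ℕ) : WithBot ℕ∞) ≤ ringKrullDim (A ⧸ (I ⊔ Ideal.ofList fs)) →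
    DepthGE A (A ⧸ (I ⊔ Ideal.ofList fs)) k ∧ IsWeaklyRegular (A ⧸ I) fs := by
  induction fs with
  | nil =>
    intro I k hI _ h _
    have : Nontrivial (A ⧸ I) := Ideal.Quotient.nontrivial_iff.2 hI
    exact ⟨depth_congr (Submodule.quotEquivOfEq I _ (by simp)) h, IsWeaklyRegular.nil A _⟩
  | cons x fs ih =>
    intro I k hI hm h hd
    have hx := hm x List.mem_cons_self
    have hm' : ∀ f ∈ fs, f ∈ maximalIdeal A := fun f hf => hm f (List.mem_cons_of_mem _ hf)
    have heq : I ⊔ Ideal.span {x} ⊔ Ideal.ofList fs = I ⊔ Ideal.ofList (x :: fs) := by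
      rw [Ideal.ofList_cons, sup_assoc]
    have hreg : ∀ a, x * a ∈ I → a ∈ I := by
      refine nzd_of_dim h fun h1 => hd ?_
      refine dimGE_mono (le_of_eq heq.symm) (dimGE_ofList fs hm' ?_)
      rw [List.length_cons] at h1
      have h2 : k + 1 + fs.length = k + (fs.length + 1) := by omega
      rw [h2]
      exact h1
    have hI' : I ⊔ Ideal.span {x} ≠ ⊤ := by
      refine ne_top_of_le_ne_top (maximalIdeal.isMaximal A).ne_top ?_
      exact sup_le (le_maximalIdeal hI) ((Ideal.span_singleton_le_iff_mem _).2 hx)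
    obtain ⟨h1, h2⟩ := ih (I := I ⊔ Ideal.span {x}) (k := k) hI' hm'
      (depth_step hI hx h hreg) (fun h3 => hd (dimGE_mono (le_of_eq heq.symm) h3))
    have : Nontrivial (A ⧸ (I ⊔ Ideal.span {x} ⊔ Ideal.ofList fs)) := by
      refine Ideal.Quotient.nontrivial_iff.2
        (ne_top_of_le_ne_top (maximalIdeal.isMaximal A).ne_top ?_)
      exact sup_le (le_maximalIdeal hI') (Ideal.span_le.2 fun f hf => hm' f hf)
    refine ⟨depth_congr (Submodule.quotEquivOfEq _ _ heq) h1, ?_⟩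
    rw [isWeaklyRegular_cons_iff]
    exact ⟨smulRegular_iff.2 hreg, ((quotEquiv I x).isWeaklyRegular_congr fs).2 h2⟩

end loc

end Vale.Agent.P022D.CA
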