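import Mathlib
import Vale.Agent.P177.Bd4.B5

/-! Jacobian criterion in a regular local ring. -/

namespace Vale.Agent.P022D.Jac

open IsLocalRing Vale.Agent.P177

universe u

/-- Elements independent in the cotangent space of a regular local ring generate a prime ideal. -/
theorem prime_of_indep : ∀ (c : ℕ) (S : Type u) [CommRing S] [IsRegularLocalRing S]
    (f : Fin c → S), (∀ i, f i ∈ maximalIdeal S) →
    (∀ a : Fin c → S, ∑ i, a i * f i ∈ maximalIdeal S ^ 2 → ∀ i, a i ∈ maximalIdeal S) →
    (Ideal.span (Set.range f)).IsPrime ∧ (c : WithBot ℕ∞) ≤ ringKrullDim S := by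
  intro c
  induction c with
  | zero =>
    intro S _ _ f _ _
    have : IsDomain S := regular_isDomain S
    refine ⟨?_, by simpa using ringKrullDim_nonneg_of_nontrivial (R := S)⟩
    rw [Set.range_eq_empty f, Ideal.span_empty]
    exact Ideal.isPrime_bot
  | succ c ih =>
    intro S _ _ f hf hind
    have h0 : f 0 ∉ maximalIdeal S ^ 2 := by
      intro h
      have h1 := hind (Pi.single 0 1) (by
        rw [Fin.sum_univ_succ]
        simpa using h) 0
      simp only [Pi.single_eq_same] at h1
      exact (maximalIdeal.isMaximal S).ne_top ((Ideal.eq_top_iff_one _).2 h1)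
    obtain ⟨hreg, hdim⟩ := regular_quotient S (f 0) (hf 0) h0
    set π := Ideal.Quotient.mk (Ideal.span {f 0}) with hπ
    have hsurj : Function.Surjective π := Ideal.Quotient.mk_surjective
    have hmax : (maximalIdeal S).map π = maximalIdeal (S ⧸ Ideal.span {f 0}) :=
      map_maximalIdeal_of_surjective _ hsurj
    have hker : RingHom.ker π = Ideal.span {f 0} := Ideal.mk_ker
    have hle : Ideal.span {f 0} ≤ maximalIdeal S := (Ideal.span_singleton_le_iff_mem _).2 (hf 0)
    obtain ⟨h1, h2⟩ := ih (S ⧸ Ideal.span {f 0}) (fun i => π (f i.succ))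
      (fun i => hmax ▸ Ideal.mem_map_of_mem π (hf i.succ)) (by
        intro a ha i
        choose b hb using fun j => hsurj (a j)
        have h3 : π (∑ j, b j * f j.succ) ∈ (maximalIdeal S ^ 2).map π := by
          rw [Ideal.map_pow, hmax, map_sum]
          simpa only [map_mul, hb] using ha
        rw [← Ideal.mem_comap, Ideal.comap_map_of_surjective π hsurj, ← RingHom.ker_eq_comap_bot,
          hker] at h3
        obtain ⟨y, hy, z, hz, hyz⟩ := Submodule.mem_sup.1 h3
        obtain ⟨e, rfl⟩ := Ideal.mem_span_singleton'.1 hz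
        have h4 := hind (Fin.cons (-e) b) (by
          rw [Fin.sum_univ_succ]
          simp only [Fin.cons_zero, Fin.cons_succ]
          rw [← hyz]
          have : -e * f 0 + (y + e * f 0) = y := by ring
          rw [this]
          exact hy) i.succ
        simp only [Fin.cons_succ] at h4
        rw [← hb i, ← hmax]
        exact Ideal.mem_map_of_mem π h4)
    refine ⟨?_, ?_⟩
    · have h5 : Ideal.span (Set.range f) =
          (Ideal.span (Set.range fun i : Fin c => π (f i.succ))).comap π := by
        have h6 : Ideal.span (Set.range fun i : Fin c => π (f i.succ)) =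
            (Ideal.span (Set.range fun i : Fin c => f i.succ)).map π := by
          rw [Ideal.map_span, ← Set.range_comp]
          rfl
        rw [h6, Ideal.comap_map_of_surjective π hsurj, ← RingHom.ker_eq_comap_bot, hker,
          Fin.range_fin_succ, Ideal.span_insert, sup_comm]
        rfl
      rw [h5]
      exact Ideal.comap_isPrime π _
    · rw [← hdim]
      push_cast
      gcongr

/-- Jacobian criterion. `D j` are derivations of the regular local ring `A`; the matrix
`D j (f i)` has independent rows modulo the prime `P` that contains the `f i`. -/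
theorem jac {A : Type u} [CommRing A] [IsRegularLocalRing A] {R : Type*} [CommRing R] [Algebra R A]
    {ι : Type*} (D : ι → Derivation R A A) {c : ℕ} (f : Fin c → A) (P : Ideal A) [hP : P.IsPrime]
    (hf : ∀ i, f i ∈ P)
    (hJ : ∀ l : Fin c → A, (∀ j, ∑ i, l i * D j (f i) ∈ P) → ∀ i, l i ∈ P) :
    (c : ℕ∞) ≤ P.height ∧ ∃ Q : Ideal A, Q.IsPrime ∧ Ideal.span (Set.range f) ≤ Q ∧ Q ≤ P ∧
      ∃ g, g ∉ P ∧ ∀ y ∈ Q, g * y ∈ Ideal.span (Set.range f) := by
  let S := Localization.AtPrime P
  have hS : IsRegularLocalRing S := isRegularLocalRing_localization A P S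
  have hmax : P.map (algebraMap A S) = maximalIdeal S := Localization.AtPrime.map_eq_maximalIdeal
  have hcom : (maximalIdeal S).comap (algebraMap A S) = P :=
    Localization.AtPrime.under_maximalIdeal
  have hDP : ∀ j, ∀ y ∈ P ^ 2, D j y ∈ P := by
    intro j y hy
    rw [pow_two] at hy
    refine Submodule.mul_induction_on hy (fun a ha b hb => ?_) (fun a b ha hb => ?_)
    · rw [Derivation.leibniz, smul_eq_mul, smul_eq_mul]
      exact P.add_mem (P.mul_mem_right _ ha) (P.mul_mem_right _ hb)
    · rw [map_add]
      exact P.add_mem ha hb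
  obtain ⟨h1, h2⟩ := prime_of_indep c S (fun i => algebraMap A S (f i))
    (fun i => hmax ▸ Ideal.mem_map_of_mem _ (hf i)) (by
      intro a ha i
      obtain ⟨s, hs⟩ := IsLocalization.exist_integer_multiples_of_finite P.primeCompl a
      choose b hb using hs
      have h3 : algebraMap A S (∑ j, b j * f j) ∈ (P ^ 2).map (algebraMap A S) := by
        rw [Ideal.map_pow, hmax, map_sum]
        have h4 : ∑ j, algebraMap A S (b j * f j) =
            algebraMap A S s * ∑ j, a j * algebraMap A S (f j) := by
          rw [Finset.mul_sum]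
          refine Finset.sum_congr rfl fun j _ => ?_
          rw [map_mul, hb j, Algebra.smul_def, mul_assoc]
        rw [h4]
        exact Ideal.mul_mem_left _ _ ha
      obtain ⟨t, ht, ht2⟩ := (IsLocalization.algebraMap_mem_map_algebraMap_iff P.primeCompl S _ _).1 h3
      have h5 := hJ (fun j => t * b j) (fun j => by
        have h6 := hDP j _ ht2
        have h7 : t * ∑ k, b k * f k = ∑ k, (t * b k) * f k := by
          rw [Finset.mul_sum]
          exact Finset.sum_congr rfl fun k _ => (mul_assoc _ _ _).symm
        rw [h7, map_sum] at h6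
        simp only [Derivation.leibniz (D j) (t * b _), smul_eq_mul] at h6
        rw [Finset.sum_add_distrib] at h6
        have h8 : ∑ k, f k * D j (t * b k) ∈ P :=
          P.sum_mem fun k _ => P.mul_mem_right _ (hf k)
        exact (P.add_mem_iff_left h8).1 h6) i
      have h9 : b i ∈ P := (hP.mem_or_mem h5).resolve_left ht
      have h10 : algebraMap A S (b i) ∈ maximalIdeal S := hmax ▸ Ideal.mem_map_of_mem _ h9
      rw [hb i, Algebra.smul_def] at h10
      refine ((maximalIdeal.isMaximal S).isPrime.mem_or_mem h10).resolve_left fun h => s.2 ?_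
      exact hcom.le h)
  have hspan : Ideal.span (Set.range fun i => algebraMap A S (f i)) =
      (Ideal.span (Set.range f)).map (algebraMap A S) := by
    rw [Ideal.map_span, ← Set.range_comp]
    rfl
  rw [hspan] at h1
  refine ⟨?_, ((Ideal.span (Set.range f)).map (algebraMap A S)).comap (algebraMap A S),
    Ideal.comap_isPrime _ _, Ideal.le_comap_map, ?_, ?_⟩
  · rw [IsLocalization.AtPrime.ringKrullDim_eq_height P S] at h2
    exact_mod_cast h2
  · exact (Ideal.comap_mono (le_maximalIdeal h1.ne_top)).trans hcom.le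
  · obtain ⟨T, hT⟩ := (((Ideal.span (Set.range f)).map (algebraMap A S)).comap
      (algebraMap A S)).fg_of_isNoetherianRing
    have h3 : ∀ y : T, ∃ t, t ∉ P ∧ t * y.1 ∈ Ideal.span (Set.range f) := fun y => by
      have h4 : y.1 ∈ ((Ideal.span (Set.range f)).map (algebraMap A S)).comap (algebraMap A S) :=
        hT ▸ Ideal.subset_span y.2
      exact (IsLocalization.algebraMap_mem_map_algebraMap_iff P.primeCompl S _ _).1 h4
    choose t ht ht2 using h3
    refine ⟨∏ y : T, t y, ?_, fun y hy => ?_⟩
    · exact P.primeCompl.prod_mem fun y _ => ht y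
    · rw [← hT] at hy
      refine Submodule.span_induction (fun z hz => ?_) (by simp) (fun a b _ _ ha hb => ?_)
        (fun a b _ hb => ?_) hy
      · classical
        rw [← Finset.mul_prod_erase Finset.univ t (Finset.mem_univ ⟨z, hz⟩), mul_comm (t _),
          mul_assoc]
        exact Ideal.mul_mem_left _ _ (ht2 ⟨z, hz⟩)
      · rw [mul_add]
        exact Ideal.add_mem _ ha hb
      · rw [smul_eq_mul, mul_left_comm]
        exact Ideal.mul_mem_left _ _ hb

/-- In a regular local ring the height and the dimension of a prime add up to the dimension. -/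
theorem dim_add_height {A : Type u} [CommRing A] [IsRegularLocalRing A] {n : ℕ}
    (hn : ringKrullDim A = n) (P : Ideal A) [P.IsPrime] :
    ∃ h d : ℕ, P.height = h ∧ ringKrullDim (A ⧸ P) = d ∧ d + h = n := by
  obtain ⟨zs, -, -, hz, h2, h3, -⟩ := exists_ci hn P
  refine ⟨zs.length, n - zs.length, h2, ?_, by omega⟩
  rw [← h3, Module.supportDim_quotient_eq_ringKrullDim]

/-- Jacobian criterion for power series with coefficients in a field. -/
theorem jac_ps {σ : Type} [Finite σ] {F : Type u} [Field F] {c : ℕ} (f : Fin c → MvPowerSeries σ F)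
    (P : Ideal (MvPowerSeries σ F)) [P.IsPrime] (hf : ∀ i, f i ∈ P)
    (hJ : ∀ l : Fin c → MvPowerSeries σ F,
      (∀ j, ∑ i, l i * MvPowerSeries.pderiv F j (f i) ∈ P) → ∀ i, l i ∈ P) :
    ringKrullDim (MvPowerSeries σ F ⧸ P) + c ≤ Nat.card σ ∧
      ∃ Q : Ideal (MvPowerSeries σ F), Q.IsPrime ∧ Ideal.span (Set.range f) ≤ Q ∧ Q ≤ P ∧
        ∃ g, g ∉ P ∧ ∀ y ∈ Q, g * y ∈ Ideal.span (Set.range f) := by
  have hA := mvPowerSeries_isRegularLocalRing σ F
  obtain ⟨h1, h2⟩ := jac (fun j => MvPowerSeries.pderiv F j) f P hf hJ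
  refine ⟨?_, h2⟩
  obtain ⟨h, d, e1, e2, e3⟩ := dim_add_height (mvPowerSeries_ringKrullDim σ F) P
  rw [e1] at h1
  rw [e2, ← e3]
  have h3 : c ≤ h := by exact_mod_cast h1
  exact_mod_cast Nat.add_le_add_left h3 d

end Vale.Agent.P022D.Jac
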