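import Vale.Agent.P022D.CA.BlkDefs
import Vale.Agent.P022D.CA.Cpl
import Vale.Agent.P022D.L2.Pt
import Vale.Agent.P022D.L2.Ev

/-!
# P022: the block at two (residually unipotent case)
-/

open IsLocalRing MvPowerSeries Filter

namespace Vale.Agent.P022D.CA

open L2

/-- the twelve variables -/
abbrev T2 : Type := Fin 3 × Fin 2 × Fin 2

/-- the universal matrices around `!![1, n i; 0, 1]` -/
noncomputable def mat2 {R : Type} [CommRing R] (n : Fin 3 → R) (i : Fin 3) :
    Matrix (Fin 2) (Fin 2) (MvPowerSeries T2 R) :=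
  Matrix.of fun p q => C ((!![1, n i; 0, 1] : Matrix (Fin 2) (Fin 2) R) p q) + X (i, p, q)

/-- the six equations -/
noncomputable def eq2 {R : Type} [CommRing R] (n δ : Fin 3 → R)
    (Z : Matrix (Fin 2) (Fin 2) (MvPowerSeries T2 R)) : Fin 3 ⊕ Fin 3 → MvPowerSeries T2 R
  | Sum.inl i => (mat2 n i).det - C (δ i)
  | Sum.inr k => ![Z 0 0 - 1, Z 0 1, Z 1 0] k

/-- `Z` is the value of the relation on the universal matrices -/
def IsZ {R : Type} [CommRing R] [IsLocalRing R] (U : Ultrafilter Wd) (n : Fin 3 → R)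
    (Z : Matrix (Fin 2) (Fin 2) (MvPowerSeries T2 R)) : Prop :=
  ∀ p q, Lim (maximalIdeal (MvPowerSeries T2 R)) U (fun w => ev (mat2 n) w p q) (Z p q)

theorem exists_isZ {O : Type} [CommRing O] [IsLocalRing O] [IsNoetherianRing O]
    [hO : IsAdicComplete (maximalIdeal O) O] [Finite (ResidueField O)] (U : Ultrafilter Wd)
    (n : Fin 3 → O) : ∃ Z, IsZ U n Z := by
  have h1 := Cpl.isAdicCompleteV (σ := T2) hO
  have h2 := Cpl.finite_residue (σ := T2) (V := O)
  have h3 := cpt (MvPowerSeries T2 O)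
  choose Z hZ using fun p q : Fin 2 => h3 U (fun w => ev (mat2 n) w p q)
  exact ⟨Matrix.of Z, hZ⟩

theorem map_mat2 {R S : Type} [CommRing R] [CommRing S] (ψ : R →+* S) (n : Fin 3 → R)
    (i : Fin 3) : (mat2 n i).map (MvPowerSeries.map ψ) = mat2 (fun i => ψ (n i)) i := by
  ext p q : 2
  fin_cases p <;> fin_cases q <;> simp [mat2]

theorem IsZ.map {R S : Type} [CommRing R] [IsLocalRing R] [CommRing S] [IsLocalRing S]
    (ψ : R →+* S) (hψ : ∀ x ∈ maximalIdeal R, ψ x ∈ maximalIdeal S) {U : Ultrafilter Wd}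
    {n : Fin 3 → R} {Z : Matrix (Fin 2) (Fin 2) (MvPowerSeries T2 R)} (h : IsZ U n Z) :
    IsZ U (fun i => ψ (n i)) (Z.map (MvPowerSeries.map ψ)) := by
  intro p q
  have h1 := Pt.lmap (φ := MvPowerSeries.map (σ := T2) ψ)
    (n := maximalIdeal (MvPowerSeries T2 S)) (fun x hx => by
      rw [Cpl.mem_max_iff] at hx ⊢
      rw [constantCoeff_map]
      exact hψ _ hx) (h p q)
  refine Pt.lcongr h1 (fun w => ?_) rfl
  have h2 := Pt.ev_map (φ := MvPowerSeries.map (σ := T2) ψ) (mat2 n) w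
  simp only [map_mat2] at h2
  rw [← h2]
  rfl

theorem map_eq2 {R S : Type} [CommRing R] [CommRing S] (ψ : R →+* S) (n δ : Fin 3 → R)
    (Z : Matrix (Fin 2) (Fin 2) (MvPowerSeries T2 R)) (i : Fin 3 ⊕ Fin 3) :
    MvPowerSeries.map ψ (eq2 n δ Z i) =
      eq2 (fun i => ψ (n i)) (fun i => ψ (δ i)) (Z.map (MvPowerSeries.map ψ)) i := by
  rcases i with i | k
  · simp only [eq2]
    rw [map_sub, RingHom.map_det, map_C, RingHom.mapMatrix_apply, map_mat2]
  · fin_cases k <;> simp [eq2]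

theorem ev_uni {F : Type} [CommRing F] [CharP F 2] (n : Fin 3 → F) (w : Wd) :
    ev (fun i => (!![1, n i; 0, 1] : Matrix (Fin 2) (Fin 2) F)) w =
      !![1, ∑ j, ZMod.castHom (dvd_refl 2) F (mA j w) * n j; 0, 1] := by
  induction w with
  | nil =>
    ext p q
    fin_cases p <;> fin_cases q <;> simp [ev, mA, fx]
  | cons i w ih =>
    rw [Pt.ev_cons, ih]
    have h1 : ∑ j, ZMod.castHom (dvd_refl 2) F (mA j (i :: w)) * n j =
        ∑ j, ZMod.castHom (dvd_refl 2) F (mA j w) * n j + n i := by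
      have h2 : ∀ j, mA j (i :: w) = (if i = j then 1 else 0) + mA j w := fun j => by
        simp [mA, fx]
      simp only [h2, map_add, add_mul, Finset.sum_add_distrib, apply_ite, map_one, map_zero,
        ite_mul, one_mul, zero_mul, Finset.sum_ite_eq, Finset.mem_univ, if_true]
      ring
    rw [h1]
    ext p q
    fin_cases p <;> fin_cases q <;> simp

theorem const_Z {F : Type} [Field F] [CharP F 2] {U : Ultrafilter Wd} (hU : Rel U)
    {n : Fin 3 → F} {Z : Matrix (Fin 2) (Fin 2) (MvPowerSeries T2 F)} (h : IsZ U n Z)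
    (p q : Fin 2) : constantCoeff (Z p q) = (1 : Matrix (Fin 2) (Fin 2) F) p q := by
  obtain ⟨w, hw1, hw2⟩ := ((h p q 1).and hU.mag).exists
  rw [pow_one, Cpl.mem_max_iff, map_sub, maximalIdeal_eq_bot, Ideal.mem_bot, sub_eq_zero] at hw1
  rw [← hw1]
  have h2 := Pt.ev_map (φ := constantCoeff (σ := T2) (R := F)) (mat2 n) w
  have h3 : ∀ i, (mat2 n i).map (constantCoeff (σ := T2) (R := F)) = !![1, n i; 0, 1] := by
    intro i
    ext p q
    simp [mat2]
  simp only [h3, ev_uni, hw2.1, map_zero, zero_mul, Finset.sum_const_zero] at h2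
  have h4 := congrFun (congrFun h2 p) q
  rw [Matrix.map_apply] at h4
  rw [h4, Matrix.one_fin_two]

theorem const_eq2 {F : Type} [Field F] [CharP F 2] {U : Ultrafilter Wd} (hU : Rel U)
    {n : Fin 3 → F} {Z : Matrix (Fin 2) (Fin 2) (MvPowerSeries T2 F)} (h : IsZ U n Z)
    (i : Fin 3 ⊕ Fin 3) : constantCoeff (eq2 n (fun _ => 1) Z i) = 0 := by
  rcases i with i | k
  · simp [eq2, mat2, Matrix.det_fin_two]
  · fin_cases k <;> simp [eq2, const_Z hU h]

theorem der_sq {K ι : Type} [Field K] [CharP K 2] (u : ι → K) (D : Derivation ℤ K K)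
    (hD : ∀ i, D (u i) = 0) {y : K} (hy : y ∈ Sq u) : D y = 0 := by
  induction hy using Subfield.closure_induction with
  | mem x hx =>
    rcases hx with ⟨z, rfl⟩ | ⟨i, rfl⟩
    · have h2 : (2 : K) = 0 := CharTwo.two_eq_zero
      simp only [Derivation.leibniz_pow, nsmul_eq_mul, Nat.cast_ofNat, h2, zero_mul]
    · exact hD i
  | one => exact D.map_one_eq_zero
  | add x y _ _ hx hy => rw [map_add, hx, hy, add_zero]
  | neg x _ hx => rw [map_neg, hx, neg_zero]
  | inv x _ hx => rw [Derivation.leibniz_inv, hx, smul_zero]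
  | mul x y _ _ hx hy => rw [Derivation.leibniz, hx, hy, smul_zero, smul_zero, add_zero]

theorem blk2 (hP : PtS) {F : Type} [Field F] [Finite F] [CharP F 2] {U : Ultrafilter Wd}
    (hU : Rel U) {n : Fin 3 → F} {Z : Matrix (Fin 2) (Fin 2) (MvPowerSeries T2 F)}
    (h : IsZ U n Z) : BlkPt (eq2 n (fun _ => 1) Z) := by
  classical
  intro B _ _ _ _ _ φ hres hX hloc hf K _ _ _
  have hB : CharP B 2 := (RingHom.charP_iff_charP (φ.comp C) 2).1 inferInstance
  have hK : CharP K 2 := charP_of_injective_algebraMap (IsFractionRing.injective B K) 2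
  have hfin : Finite (ResidueField B) := by
    refine Finite.of_surjective (fun a : F => residue B (φ (C a))) fun y => ?_
    obtain ⟨b, rfl⟩ := residue_surjective y
    obtain ⟨a, ha⟩ := hres b
    exact ⟨a, (Ideal.Quotient.eq.2 ha).symm⟩
  have hdet : ∀ i, φ (mat2 n i).det = 1 := by
    intro i
    have h1 := hf (Sum.inl i)
    simp only [eq2, map_sub, map_one] at h1
    exact sub_eq_zero.1 h1
  have h00 : φ (Z 0 0) = 1 := by
    have h1 := hf (Sum.inr 0)
    simp only [eq2, Matrix.cons_val_zero, map_sub, map_one] at h1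
    exact sub_eq_zero.1 h1
  have hpt := hP U hU (MvPowerSeries T2 F) (mat2 n) Z h
    (fun i p q => (pderiv F (i, p, q)).toLinearMap.toAddMonoidHom)
    (fun i p q x y => (pderiv F (i, p, q)).leibniz x y)
    (fun i p q i' p' q' => by
      change pderiv F (i, p, q) (C _ + X (i', p', q')) = _
      rw [map_add, pderiv_C, zero_add]
      split_ifs with hh
      · obtain ⟨rfl, rfl, rfl⟩ := hh
        exact pderiv_X_self
      · refine pderiv_X_of_ne fun e => hh ?_
        simp only [Prod.mk.injEq] at e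
        exact ⟨e.1.symm, e.2.1.symm, e.2.2.symm⟩)
    B (cpt B) φ hloc
    (fun i => by
      refine ⟨?_, ?_, ?_, ?_⟩
      · rw [← RingHom.mapMatrix_apply, ← RingHom.map_det]
        exact hdet i
      · simpa [mat2] using hX (i, 0, 0)
      · simpa [mat2] using hX (i, 1, 0)
      · simpa [mat2] using hX (i, 1, 1))
    h00 (hf (Sum.inr 1)) (hf (Sum.inr 2)) K
  rcases hpt with hJ | ⟨u, hu⟩
  · left
    intro l hl
    obtain ⟨h1, h2⟩ := hJ (fun i => l (Sum.inl i)) (fun k => l (Sum.inr k)) (fun i p q => by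
      have h3 := hl (i, p, q)
      rw [Fintype.sum_sum_type, Fin.sum_univ_three (fun k => l (Sum.inr k) * _)] at h3
      simp only [eq2, map_sub, pderiv_C, sub_zero, Matrix.cons_val_zero, Matrix.cons_val_one,
        Matrix.cons_val, pderiv_one] at h3
      exact h3)
    rintro (i | k)
    · exact congrFun h1 i
    · exact congrFun h2 k
  · right
    refine ⟨Finset.univ.image u, ?_, fun D hD t => ?_⟩
    · have h1 : (Finset.univ.image u).card ≤ 4 := Finset.card_image_le.trans (by simp)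
      have h2 : Fintype.card (Fin 3 ⊕ Fin 3) = 6 := by simp
      have h3 : Fintype.card T2 = 12 := by simp
      omega
    · obtain ⟨i, p, q⟩ := t
      have h1 := der_sq u D (fun j => hD _ (Finset.mem_image_of_mem u (Finset.mem_univ j)))
        (hu i p q)
      obtain ⟨a, ha⟩ := (frobeniusEquiv F 2).surjective
        ((!![1, n i; 0, 1] : Matrix (Fin 2) (Fin 2) F) p q)
      have h2 : mat2 n i p q = C a ^ 2 + X (i, p, q) := by
        rw [← map_pow]
        exact congrArg (fun z => C z + X (i, p, q)) ha.symm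
      have h3 : (2 : K) = 0 := CharTwo.two_eq_zero
      rw [h2, map_add, map_add, map_add, map_pow, map_pow, Derivation.leibniz_pow, nsmul_eq_mul,
        Nat.cast_ofNat, h3, zero_mul, zero_add] at h1
      exact h1

/-- the block at two over `O`, in the form used by `dom_blocks_lift` -/
theorem blk2_lift (hP : PtS) {O F : Type} [CommRing O] [IsLocalRing O] [Field F] [Finite F]
    [CharP F 2] (ψ : O →+* F) (hψ : ∀ x ∈ maximalIdeal O, ψ x = 0) {U : Ultrafilter Wd}
    (hU : Rel U) {n δ : Fin 3 → O} (hδ : ∀ i, ψ (δ i) = 1)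
    {Z : Matrix (Fin 2) (Fin 2) (MvPowerSeries T2 O)} (h : IsZ U n Z) :
    (∀ i, ψ (constantCoeff (eq2 n δ Z i)) = 0) ∧
      BlkPt (fun i => MvPowerSeries.map ψ (eq2 n δ Z i)) := by
  have h1 := h.map ψ (fun x hx => by rw [hψ x hx]; exact zero_mem _)
  have h2 : (fun i => MvPowerSeries.map ψ (eq2 n δ Z i)) =
      eq2 (fun i => ψ (n i)) (fun _ => 1) (Z.map (MvPowerSeries.map ψ)) := by
    funext i
    rw [map_eq2, funext hδ]
  refine ⟨fun i => ?_, h2 ▸ blk2 hP hU h1⟩
  rw [← constantCoeff_map, congrFun h2 i]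
  exact const_eq2 hU h1 i

/-- the equations vanish on representations with values in a ring with nilpotent maximal ideal -/
theorem eq2_vanish {G : Type} [Group G] [TopologicalSpace G] {g : Fin 3 → G} {U : Ultrafilter Wd}
    (hH : Holds g U) {A : Type} [CommRing A] [IsLocalRing A] (hA : IsNilpotent (maximalIdeal A))
    (h2 : (2 : A) ∈ maximalIdeal A) (ρ : G →* Matrix (Fin 2) (Fin 2) A) (ho : IsOpen {x | ρ x = 1})
    (hu : ∀ x, ρ x 0 0 - 1 ∈ maximalIdeal A ∧ ρ x 1 0 ∈ maximalIdeal A ∧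
      ρ x 1 1 - 1 ∈ maximalIdeal A)
    {O : Type} [CommRing O] [IsLocalRing O] {n δ : Fin 3 → O}
    {Z : Matrix (Fin 2) (Fin 2) (MvPowerSeries T2 O)} (h : IsZ U n Z)
    (φ : MvPowerSeries T2 O →+* A)
    (hφ : ∀ x ∈ maximalIdeal (MvPowerSeries T2 O), φ x ∈ maximalIdeal A)
    (hX : ∀ i, (mat2 n i).map φ = ρ (g i)) (hd : ∀ i, (ρ (g i)).det = φ (C (δ i)))
    (i : Fin 3 ⊕ Fin 3) : φ (eq2 n δ Z i) = 0 := by
  have h1 := (evs G g U hH A hA h2 ρ ho hu).2 (MvPowerSeries T2 O) (mat2 n) Z h φ hφ hX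
  rcases i with i | k
  · simp only [eq2]
    rw [map_sub, RingHom.map_det, RingHom.mapMatrix_apply, hX, hd, sub_self]
  · have h3 : ∀ p q, φ (Z p q) = (1 : Matrix (Fin 2) (Fin 2) A) p q := fun p q =>
      congrFun (congrFun h1 p) q
    fin_cases k <;> simp [eq2, h3]

end Vale.Agent.P022D.CA
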