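import Mathlib

/-!
# P022: the pointwise dichotomy for one block of variables and equations
-/

open IsLocalRing MvPowerSeries

namespace Vale.Agent.P022D.CA

/-- At every point `φ` of the equations `f` with values in a complete local domain `B` with
residue field `F`, either the Jacobian rows are independent over the fraction field `K`, or the
coordinates are determined, for derivations of `K`, by two elements less than the expected
dimension. -/
def BlkPt {F τ ι : Type} [Field F] [Fintype τ] [Fintype ι] (f : ι → MvPowerSeries τ F) : Prop :=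
  ∀ (B : Type) [CommRing B] [IsDomain B] [IsLocalRing B] [IsNoetherianRing B]
    [IsPrecomplete (maximalIdeal B) B] (φ : MvPowerSeries τ F →+* B),
    (∀ b : B, ∃ a : F, b - φ (C a) ∈ maximalIdeal B) →
    (∀ t, φ (X t) ∈ maximalIdeal B) →
    (∀ x ∈ maximalIdeal (MvPowerSeries τ F), φ x ∈ maximalIdeal B) → (∀ i, φ (f i) = 0) →
    ∀ (K : Type) [Field K] [Algebra B K] [IsFractionRing B K],
    (∀ l : ι → K, (∀ t, ∑ i, l i * algebraMap B K (φ (pderiv F t (f i))) = 0) → ∀ i, l i = 0) ∨
      ∃ s : Finset K, s.card + Fintype.card ι + 2 ≤ Fintype.card τ ∧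
        ∀ D : Derivation ℤ K K, (∀ y ∈ s, D y = 0) → ∀ t, D (algebraMap B K (φ (X t))) = 0

/-- the inclusion of the variables of one block -/
def emb {β σ : Type} {τ : β → Type} (e : (Σ b, τ b) ↪ σ) (b : β) : τ b ↪ σ :=
  (Function.Embedding.sigmaMk b).trans e

/-- all the equations of all the blocks, in one power series ring -/
noncomputable def eqs {R β σ : Type} [CommRing R] {τ ι : β → Type} (e : (Σ b, τ b) ↪ σ)
    (f : ∀ b, ι b → MvPowerSeries (τ b) R) (p : Σ b, ι b) : MvPowerSeries σ R :=
  rename (emb e p.1) (f p.1 p.2)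

theorem pderiv_rename {R τ σ : Type} [CommRing R] (e : τ ↪ σ) (t : τ) (g : MvPowerSeries τ R) :
    pderiv R (e t) (rename e g) = rename e (pderiv R t g) := by
  ext n
  rw [coeff_pderiv]
  by_cases hn : n ∈ Set.range (Finsupp.mapDomain (M := ℕ) e)
  · obtain ⟨x, rfl⟩ := hn
    rw [← Finsupp.embDomain_eq_mapDomain, ← Finsupp.embDomain_single, ← Finsupp.embDomain_add,
      coeff_embDomain_rename, coeff_embDomain_rename, coeff_pderiv, Finsupp.embDomain_apply_self]
  · rw [coeff_rename_eq_zero e _ hn, coeff_rename_eq_zero, zero_mul]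
    rintro ⟨x, hx⟩
    apply hn
    refine ⟨x - Finsupp.single t 1, ?_⟩
    have h1 : Finsupp.single t 1 ≤ x := by
      rw [Finsupp.single_le_iff]
      have h2 := congrArg (fun y => y (e t)) hx
      simp only [Finsupp.mapDomain_apply e.injective, Finsupp.add_apply,
        Finsupp.single_eq_same] at h2
      omega
    have h3 : Finsupp.mapDomain e (x - Finsupp.single t 1) + Finsupp.single (e t) 1 =
        n + Finsupp.single (e t) 1 := by
      rw [← hx, ← Finsupp.mapDomain_single (f := e), ← Finsupp.mapDomain_add,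
        tsub_add_cancel_of_le h1]
    exact add_right_cancel h3

theorem pderiv_rename_out {R τ σ : Type} [CommRing R] (e : τ ↪ σ) {j : σ} (hj : j ∉ Set.range e)
    (g : MvPowerSeries τ R) : pderiv R j (rename e g) = 0 := by
  ext n
  rw [coeff_pderiv, coeff_rename_eq_zero, zero_mul, map_zero]
  rintro ⟨x, hx⟩
  have h2 := congrArg (fun y => y j) hx
  simp only [Finsupp.mapDomain_of_notMem_range x j hj, Finsupp.add_apply,
    Finsupp.single_eq_same] at h2
  omega

/-- Quotients of complete rings are complete. -/
theorem isPrecomplete_of_surj {A B : Type*} [CommRing A] [CommRing B] (φ : A →+* B)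
    (hφ : Function.Surjective φ) (I : Ideal A) [hI : IsPrecomplete I A] :
    IsPrecomplete (I.map φ) B := by
  rw [isPrecomplete_iff]
  intro f hf
  have h1 : ∀ n, ∃ d ∈ I ^ n, φ d = f (n + 1) - f n := by
    intro n
    have h2 := (hf (Nat.le_succ n)).symm
    rw [SModEq.sub_mem, smul_eq_mul, Ideal.mul_top, ← Ideal.map_pow] at h2
    exact (Ideal.mem_map_iff_of_surjective φ hφ).1 h2
  choose d hd hd' using h1
  obtain ⟨g0, hg0⟩ := hφ (f 0)
  let g : ℕ → A := fun n => g0 + ∑ i ∈ Finset.range n, d i
  have hg : ∀ n, φ (g n) = f n := by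
    intro n
    induction n with
    | zero => simpa [g] using hg0
    | succ n ih =>
      have e1 : g (n + 1) = g n + d n := by
        simp only [g]
        rw [Finset.sum_range_succ, add_assoc]
      rw [e1, map_add, ih, hd', add_sub_cancel]
  obtain ⟨L, hL⟩ := hI.prec (f := g) (fun {m n} hmn => by
    rw [SModEq.sub_mem, smul_eq_mul, Ideal.mul_top]
    induction n, hmn using Nat.le_induction with
    | base => simp
    | succ n hmn ih =>
      have e1 : g m - g (n + 1) = (g m - g n) - d n := by
        simp only [g]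
        rw [Finset.sum_range_succ]
        ring
      rw [e1]
      exact Ideal.sub_mem _ ih (Ideal.pow_le_pow_right hmn (hd n)))
  refine ⟨φ L, fun n => ?_⟩
  have h3 := hL n
  rw [SModEq.sub_mem, smul_eq_mul, Ideal.mul_top] at h3 ⊢
  rw [← hg, ← map_sub, ← Ideal.map_pow]
  exact Ideal.mem_map_of_mem φ h3

end Vale.Agent.P022D.CA
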