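import Vale.Agent.P022D.CA.BlkDefs

/-!
# P022: the block at infinity
-/

open IsLocalRing MvPowerSeries

namespace Vale.Agent.P022D.CA

/-- the matrix of trace zero with coordinates `X 0, X 1, X 2` around `!![α, β; γ, -α]` -/
noncomputable def matInf {R : Type} [CommRing R] (α β γ : R) :
    Matrix (Fin 2) (Fin 2) (MvPowerSeries (Fin 3) R) :=
  !![C α + X 0, C β + X 1; C γ + X 2, -(C α + X 0)]

/-- the equation `det = -1` -/
noncomputable def eqInf {R : Type} [CommRing R] (α β γ : R) (_ : Unit) :
    MvPowerSeries (Fin 3) R :=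
  (C α + X 0) ^ 2 + (C β + X 1) * (C γ + X 2) - 1

theorem eqInf_det {R : Type} [CommRing R] (α β γ : R) :
    eqInf α β γ () = -((matInf α β γ).det + 1) := by
  rw [eqInf, matInf, Matrix.det_fin_two_of]
  ring

theorem map_eqInf {R S : Type} [CommRing R] [CommRing S] (ψ : R →+* S) (α β γ : R) (i : Unit) :
    MvPowerSeries.map ψ (eqInf α β γ i) = eqInf (ψ α) (ψ β) (ψ γ) i := by
  simp [eqInf]

theorem const_eqInf {R : Type} [CommRing R] (α β γ : R) (i : Unit) :
    constantCoeff (eqInf α β γ i) = α ^ 2 + β * γ - 1 := by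
  simp [eqInf]

theorem const_zero {F B : Type} [Field F] [CommRing B] [IsLocalRing B] (φ : F →+* B) {a : F}
    {x : B} (hx : x ∈ maximalIdeal B) (h : φ a + x = 0) : x = 0 := by
  by_cases ha : a = 0
  · rwa [ha, map_zero, zero_add] at h
  · exfalso
    have h1 : IsUnit (φ a) := (IsUnit.mk0 a ha).map φ
    have h2 : φ a = -x := eq_neg_of_add_eq_zero_left h
    rw [h2] at h1
    exact (mem_maximalIdeal _).1 (neg_mem hx) h1

theorem blkInf {F : Type} [Field F] [CharP F 2] {α β γ : F} (h : α ^ 2 + β * γ = 1) :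
    BlkPt (eqInf α β γ) := by
  intro B _ _ _ _ _ φ _ hX _ hf K _ _ _
  by_cases hs : φ (C β + X 1) = 0 ∧ φ (C γ + X 2) = 0
  · right
    refine ⟨∅, by simp, fun D _ t => ?_⟩
    have h1 : φ (X 1) = 0 := const_zero (φ.comp C) (hX 1) (by simpa using hs.1)
    have h2 : φ (X 2) = 0 := const_zero (φ.comp C) (hX 2) (by simpa using hs.2)
    have h2' : (2 : B) = 0 := by
      have h3 : ((2 : ℕ) : F) = 0 := CharP.cast_eq_zero F 2
      have h4 := congrArg (φ.comp C) h3
      rwa [map_natCast, map_zero] at h4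
    have h0 : φ (X 0) = 0 := by
      have h3 := hf ()
      have h4 := congrArg (φ.comp C) h
      simp only [eqInf, map_sub, map_add, map_mul, map_pow, map_one, h1, h2, add_zero,
        RingHom.comp_apply] at h3 h4
      refine pow_eq_zero_iff (two_ne_zero) |>.1 ?_
      linear_combination h3 - h4 - φ (C α) * φ (X 0) * h2'
    have h3 : φ (X t) = 0 := by
      fin_cases t
      · exact h0
      · exact h1
      · exact h2
    rw [h3, map_zero, map_zero]
  · left
    intro l hl i
    by_contra hne
    apply hs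
    have key : ∀ (t : Fin 3) (g : MvPowerSeries (Fin 3) F), pderiv F t (eqInf α β γ ()) = g →
        φ g = 0 := by
      intro t g hg
      have h1 := hl t
      rw [Fintype.sum_unique, hg] at h1
      exact (IsFractionRing.to_map_eq_zero_iff (K := K)).1
        ((mul_eq_zero.1 h1).resolve_left hne)
    refine ⟨key 2 _ ?_, key 1 _ ?_⟩
    · simp [eqInf, Derivation.leibniz, Derivation.leibniz_pow, pderiv_X_of_ne]
    · simp [eqInf, Derivation.leibniz, Derivation.leibniz_pow, pderiv_X_of_ne]

end Vale.Agent.P022D.CA
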