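import Mathlib
import Vale.Agent.P022D.CA.Jac

/-! The dimension of a prime quotient of a power series ring is at most the dimension of the space
of derivations of its fraction field. -/

namespace Vale.Agent.P022D.Pdeg

open IsLocalRing Vale.Agent.P177 MvPowerSeries

universe u

variable {σ : Type} [Fintype σ] {F : Type u} [Field F] {K : Type*} [Field K]

/-- `dv φ a` is the linear form `v ↦ ∑ v j * φ (∂ j a)`. -/
noncomputable def dv (φ : MvPowerSeries σ F →+* K) (a : MvPowerSeries σ F) : (σ → K) →ₗ[K] K where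
  toFun v := ∑ j, v j * φ (pderiv F j a)
  map_add' v w := by simp [add_mul, Finset.sum_add_distrib]
  map_smul' c v := by simp [Finset.mul_sum, mul_assoc]

theorem dv_apply (φ : MvPowerSeries σ F →+* K) (a : MvPowerSeries σ F) (v : σ → K) :
    dv φ a v = ∑ j, v j * φ (pderiv F j a) := rfl

theorem dv_add (φ : MvPowerSeries σ F →+* K) (a b : MvPowerSeries σ F) (v : σ → K) :
    dv φ (a + b) v = dv φ a v + dv φ b v := by
  simp [dv_apply, mul_add, Finset.sum_add_distrib]

theorem dv_mul (φ : MvPowerSeries σ F →+* K) (a b : MvPowerSeries σ F) (v : σ → K) :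
    dv φ (a * b) v = φ a * dv φ b v + φ b * dv φ a v := by
  simp only [dv_apply, Derivation.leibniz, smul_eq_mul, map_add, map_mul, Finset.mul_sum,
    ← Finset.sum_add_distrib]
  exact Finset.sum_congr rfl fun j _ => by ring

theorem dv_zero (φ : MvPowerSeries σ F →+* K) (v : σ → K) : dv φ 0 v = 0 := by
  simp [dv_apply]

theorem dv_one (φ : MvPowerSeries σ F →+* K) (v : σ → K) : dv φ 1 v = 0 := by
  simp [dv_apply]

theorem dv_C (φ : MvPowerSeries σ F →+* K) (r : F) (v : σ → K) : dv φ (C r) v = 0 := by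
  simp [dv_apply]

theorem dv_X (φ : MvPowerSeries σ F →+* K) (i : σ) (v : σ → K) : dv φ (X i) v = v i := by
  classical
  rw [dv_apply, Finset.sum_eq_single i (fun j _ hj => by rw [pderiv_X_of_ne hj.symm]; simp)
    (by simp)]
  simp

/-- The tangent space at the point `φ` of the closure of that point. -/
noncomputable def Tan (φ : MvPowerSeries σ F →+* K) : Submodule K (σ → K) where
  carrier := {v | ∀ g, φ g = 0 → dv φ g v = 0}
  add_mem' := fun {v w} hv hw g hg => by rw [map_add, hv g hg, hw g hg, add_zero]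
  zero_mem' := fun g _ => map_zero _
  smul_mem' := fun c v hv g hg => by rw [map_smul, hv g hg, smul_zero]

theorem mem_Tan {φ : MvPowerSeries σ F →+* K} {v : σ → K} :
    v ∈ Tan φ ↔ ∀ g, φ g = 0 → dv φ g v = 0 := Iff.rfl

/-- The dimension of `A / P` is at most the dimension of the tangent space at a point with
kernel `P`, in any field. -/
theorem dim_le_finrank (φ : MvPowerSeries σ F →+* K) (P : Ideal (MvPowerSeries σ F))
    (hP : ∀ g, g ∈ P ↔ φ g = 0) :
    ringKrullDim (MvPowerSeries σ F ⧸ P) ≤ Module.finrank K (Tan φ) := by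
  classical
  have hPk : P = RingHom.ker φ := Ideal.ext fun g => hP g
  have hpr : P.IsPrime := hPk ▸ RingHom.ker_isPrime φ
  have hA := mvPowerSeries_isRegularLocalRing σ F
  obtain ⟨h, d, e1, e2, e3⟩ := Jac.dim_add_height (mvPowerSeries_ringKrullDim σ F) P
  let S := Localization.AtPrime P
  have hS : IsRegularLocalRing S := isRegularLocalRing_localization _ P S
  have hmax : P.map (algebraMap _ S) = maximalIdeal S := Localization.AtPrime.map_eq_maximalIdeal
  have hcom : (maximalIdeal S).comap (algebraMap _ S) = P :=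
    Localization.AtPrime.under_maximalIdeal
  obtain ⟨T, hcard, hT⟩ := Submodule.FG.exists_span_finset_card_eq_spanFinrank
    ((maximalIdeal S).fg_of_isNoetherianRing)
  change Ideal.span (T : Set S) = maximalIdeal S at hT
  have hTh : T.card = h := by
    have h1 := exists_nat_ringKrullDim S
    rw [IsLocalization.AtPrime.ringKrullDim_eq_height P S, e1, ← hcard] at h1
    exact_mod_cast h1.symm
  have hnum : ∀ t : T, ∃ (g : MvPowerSeries σ F) (s : P.primeCompl),
      t.1 * algebraMap _ S s.1 = algebraMap _ S g := fun t => by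
    obtain ⟨⟨g, s⟩, hgs⟩ := IsLocalization.surj P.primeCompl t.1
    exact ⟨g, s, hgs⟩
  choose g s hgs using hnum
  have hgP : ∀ t, g t ∈ P := fun t => hcom.le (by
    rw [Ideal.mem_comap, ← hgs t]
    exact Ideal.mul_mem_right _ _ (hT ▸ Ideal.subset_span t.2))
  have hle : maximalIdeal S ≤ (Ideal.span (Set.range g)).map (algebraMap _ S) := by
    rw [← hT, Ideal.span_le]
    intro t ht
    obtain ⟨w, hw⟩ := (IsLocalization.map_units S (s ⟨t, ht⟩)).exists_right_inv
    have h2 : t = algebraMap _ S (g ⟨t, ht⟩) * w := by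
      rw [← hgs, mul_assoc, hw, mul_one]
    rw [SetLike.mem_coe, h2]
    exact Ideal.mul_mem_right _ _ (Ideal.mem_map_of_mem _ (Ideal.subset_span ⟨_, rfl⟩))
  let L : (σ → K) →ₗ[K] (T → K) := LinearMap.pi fun t => dv φ (g t)
  have hker : LinearMap.ker L ≤ Tan φ := by
    intro v hv y hy
    have hv' : ∀ t, dv φ (g t) v = 0 := fun t => congrFun (LinearMap.mem_ker.1 hv) t
    have h3 : ∀ z ∈ Ideal.span (Set.range g), φ z = 0 ∧ dv φ z v = 0 := by
      intro z hz
      refine Submodule.span_induction ?_ ⟨map_zero _, dv_zero φ v⟩ (fun a b _ _ ha hb => ?_)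
        (fun a b _ hb => ?_) hz
      · rintro _ ⟨t, rfl⟩
        exact ⟨(hP _).1 (hgP t), hv' t⟩
      · rw [map_add, dv_add, ha.1, ha.2, hb.1, hb.2, add_zero]
        exact ⟨rfl, rfl⟩
      · rw [smul_eq_mul, map_mul, dv_mul, hb.1, hb.2]
        simp
    obtain ⟨t, ht, hty⟩ := (IsLocalization.algebraMap_mem_map_algebraMap_iff P.primeCompl S _ _).1
      (hle (hmax ▸ Ideal.mem_map_of_mem _ ((hP y).2 hy)))
    have h4 := (h3 _ hty).2
    rw [dv_mul, hy, zero_mul, add_zero] at h4
    exact (mul_eq_zero.1 h4).resolve_left fun h0 => ht ((hP t).2 h0)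
  have h5 := LinearMap.finrank_range_add_finrank_ker L
  have h6 := Submodule.finrank_le (LinearMap.range L)
  have h7 := Submodule.finrank_mono hker
  rw [Module.finrank_fintype_fun_eq_card] at h5 h6
  rw [Fintype.card_coe, hTh] at h6
  rw [Nat.card_eq_fintype_card] at e3
  rw [e2]
  exact_mod_cast (by omega : d ≤ Module.finrank K (Tan φ))

/-- A tangent vector gives a derivation of the fraction field. -/
theorem exists_derivation (φ : MvPowerSeries σ F →+* K)
    (hfr : ∀ y : K, ∃ a b, φ b ≠ 0 ∧ y * φ b = φ a) {v : σ → K} (hv : v ∈ Tan φ) :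
    ∃ D : Derivation ℤ K K, ∀ a, D (φ a) = dv φ a v := by
  choose na de hde hq using hfr
  have hneg : ∀ a, dv φ (-a) v = -dv φ a v := fun a => by
    have := dv_add φ a (-a) v
    rw [add_neg_cancel, dv_zero] at this
    linear_combination -this
  have key : ∀ (y : K) (a b : MvPowerSeries σ F), y * φ b = φ a →
      (dv φ (na y) v - y * dv φ (de y) v) / φ (de y) * φ b = dv φ a v - y * dv φ b v := by
    intro y a b hab
    have h1 : φ (a * de y + -(na y * b)) = 0 := by
      rw [map_add, map_neg, map_mul, map_mul, ← hab, ← hq y]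
      ring
    have h2 := hv _ h1
    rw [dv_add, hneg, dv_mul, dv_mul, ← hab, ← hq y] at h2
    have h3 := hde y
    field_simp
    linear_combination -h2
  let d : K → K := fun y => (dv φ (na y) v - y * dv φ (de y) v) / φ (de y)
  have key' : ∀ (y : K) (a b : MvPowerSeries σ F), y * φ b = φ a →
      d y * φ b = dv φ a v - y * dv φ b v := key
  have hadd : ∀ y z, d (y + z) = d y + d z := by
    intro y z
    have h1 := key' (y + z) (na y * de z + na z * de y) (de y * de z) (by
      rw [map_add, map_mul, map_mul, map_mul, ← hq y, ← hq z]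
      ring)
    have h2 := key' y _ _ (hq y)
    have h3 := key' z _ _ (hq z)
    rw [dv_add, dv_mul, dv_mul, dv_mul, map_mul, ← hq y, ← hq z] at h1
    refine mul_right_cancel₀ (mul_ne_zero (hde y) (hde z)) ?_
    linear_combination h1 - φ (de z) * h2 - φ (de y) * h3
  have hmul : ∀ y z, d (y * z) = y * d z + z * d y := by
    intro y z
    have h1 := key' (y * z) (na y * na z) (de y * de z) (by
      rw [map_mul, map_mul, ← hq y, ← hq z]
      ring)
    have h2 := key' y _ _ (hq y)
    have h3 := key' z _ _ (hq z)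
    rw [dv_mul, dv_mul, map_mul, ← hq y, ← hq z] at h1
    refine mul_right_cancel₀ (mul_ne_zero (hde y) (hde z)) ?_
    linear_combination h1 - z * φ (de z) * h2 - y * φ (de y) * h3
  refine ⟨Derivation.mk' (AddMonoidHom.mk' d hadd).toIntLinearMap (fun y z => hmul y z),
    fun a => ?_⟩
  have h4 := key' (φ a) a 1 (by simp)
  rw [map_one, mul_one, dv_one, mul_zero, sub_zero] at h4
  exact h4

/-- Block form. If every derivation of `K` that kills `s` kills the coordinates `e t`, the
projection of the tangent space to these coordinates has dimension at most the size of `s`. -/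
theorem finrank_block_le (φ : MvPowerSeries σ F →+* K)
    (hfr : ∀ y : K, ∃ a b, φ b ≠ 0 ∧ y * φ b = φ a) {τ : Type*} (e : τ → σ) (s : Finset K)
    (hs : ∀ D : Derivation ℤ K K, (∀ y ∈ s, D y = 0) → ∀ t, D (φ (X (e t))) = 0) :
    Module.finrank K ((Tan φ).map (LinearMap.funLeft K K e)) ≤ s.card := by
  choose na de hde hq using id hfr
  let L : Tan φ →ₗ[K] (s → K) :=
    (LinearMap.pi fun y : s => dv φ (na y.1) - y.1 • dv φ (de y.1)).domRestrict (Tan φ)
  let M : Tan φ →ₗ[K] (τ → K) := (LinearMap.funLeft K K e).domRestrict (Tan φ)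
  have hker : LinearMap.ker L ≤ LinearMap.ker M := by
    intro v hv
    obtain ⟨D, hD⟩ := exists_derivation φ hfr v.2
    have h1 := hs D (fun y hy => by
      have h2 : dv φ (na y) v.1 - y * dv φ (de y) v.1 = 0 :=
        congrFun (LinearMap.mem_ker.1 hv) ⟨y, hy⟩
      have h3 := congrArg D (hq y)
      rw [Derivation.leibniz, hD, hD, smul_eq_mul, smul_eq_mul] at h3
      refine (mul_eq_zero.1 (?_ : φ (de y) * D y = 0)).resolve_left (hde y)
      linear_combination h2 + h3)
    rw [LinearMap.mem_ker]
    funext t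
    have h4 := h1 t
    rw [hD, dv_X] at h4
    exact h4
  have h5 := LinearMap.finrank_range_add_finrank_ker L
  have h6 := LinearMap.finrank_range_add_finrank_ker M
  have h7 := Submodule.finrank_mono hker
  have h8 := Submodule.finrank_le (LinearMap.range L)
  rw [Module.finrank_fintype_fun_eq_card, Fintype.card_coe] at h8
  have h9 : LinearMap.range M = (Tan φ).map (LinearMap.funLeft K K e) :=
    LinearMap.range_domRestrict _ _
  rw [← h9]
  omega

/-- If every derivation of the fraction field that kills `s` kills all coordinates, the dimension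
is at most the size of `s`. -/
theorem dim_le_card_of_derivation (φ : MvPowerSeries σ F →+* K) (P : Ideal (MvPowerSeries σ F))
    (hP : ∀ g, g ∈ P ↔ φ g = 0) (hfr : ∀ y : K, ∃ a b, φ b ≠ 0 ∧ y * φ b = φ a) (s : Finset K)
    (hs : ∀ D : Derivation ℤ K K, (∀ y ∈ s, D y = 0) → ∀ i, D (φ (X i)) = 0) :
    ringKrullDim (MvPowerSeries σ F ⧸ P) ≤ s.card := by
  have h1 := finrank_block_le φ hfr id s hs
  have h2 : LinearMap.funLeft K K (id : σ → σ) = LinearMap.id := rfl
  rw [h2, Submodule.map_id] at h1
  exact (dim_le_finrank φ P hP).trans (by exact_mod_cast h1)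

/-- A derivation that kills `s` kills the subfield generated by the `p`-th powers and `s`. -/
theorem derivation_closure (p : ℕ) [CharP K p] (s : Set K) (D : Derivation ℤ K K)
    (hD : ∀ y ∈ s, D y = 0) {y : K}
    (hy : y ∈ Subfield.closure (Set.range (fun z : K => z ^ p) ∪ s)) : D y = 0 := by
  refine Subfield.closure_induction (p := fun y _ => D y = 0) ?_ ?_ ?_ ?_ ?_ ?_ hy
  · rintro z (⟨w, rfl⟩ | hz)
    · simp only [Derivation.leibniz_pow, nsmul_eq_mul, CharP.cast_eq_zero, zero_mul]
    · exact hD z hz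
  · exact D.map_one_eq_zero
  · intro a b _ _ ha hb
    rw [map_add, ha, hb, add_zero]
  · intro a _ ha
    rw [map_neg, ha, neg_zero]
  · intro a _ ha
    rw [Derivation.leibniz_inv, ha, smul_zero]
  · intro a b _ _ ha hb
    rw [Derivation.leibniz, ha, hb, smul_zero, smul_zero, add_zero]

/-- If all coordinates lie in the subfield generated by the `p`-th powers and `s`, the dimension is
at most the size of `s`. -/
theorem pdeg (p : ℕ) [CharP K p] (φ : MvPowerSeries σ F →+* K) (P : Ideal (MvPowerSeries σ F))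
    (hP : ∀ g, g ∈ P ↔ φ g = 0) (hfr : ∀ y : K, ∃ a b, φ b ≠ 0 ∧ y * φ b = φ a) (s : Finset K)
    (hs : ∀ i, φ (X i) ∈ Subfield.closure (Set.range (fun z : K => z ^ p) ∪ (s : Set K))) :
    ringKrullDim (MvPowerSeries σ F ⧸ P) ≤ s.card := by
  refine dim_le_card_of_derivation φ P hP hfr s fun D hD i => ?_
  exact derivation_closure p (s : Set K) D (fun y hy => hD y (Finset.mem_coe.1 hy)) (hs i)

/-- The dimension of a subspace is at most the sum of the dimensions of its block projections. -/
theorem finrank_le_sum {β : Type*} [Fintype β] {τ : β → Type*} [∀ b, Fintype (τ b)]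
    (e : ∀ b, τ b → σ) (he : ∀ j, ∃ b t, e b t = j) (V : Submodule K (σ → K)) :
    Module.finrank K V ≤ ∑ b, Module.finrank K (V.map (LinearMap.funLeft K K (e b))) := by
  let L : V →ₗ[K] (∀ b, V.map (LinearMap.funLeft K K (e b))) :=
    LinearMap.pi fun b => (LinearMap.funLeft K K (e b)).submoduleMap V
  have hL : Function.Injective L := by
    rw [← LinearMap.ker_eq_bot, LinearMap.ker_eq_bot']
    intro v hv
    refine Subtype.ext (funext fun j => ?_)
    obtain ⟨b, t, rfl⟩ := he j
    exact congrFun (congrArg Subtype.val (congrFun hv b)) t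
  have h1 := LinearMap.finrank_le_finrank_of_injective hL
  rwa [Module.finrank_pi_fintype] at h1

/-- A block whose equations `f` depend only on the coordinates `e t` and have independent
Jacobian rows at `φ`. -/
theorem finrank_block_jac (φ : MvPowerSeries σ F →+* K) {τ : Type*} [Fintype τ] (e : τ → σ)
    (he : Function.Injective e) {ι : Type*} [Fintype ι] (f : ι → MvPowerSeries σ F)
    (hf : ∀ i, φ (f i) = 0) (hout : ∀ i j, j ∉ Set.range e → φ (pderiv F j (f i)) = 0)
    (hJ : ∀ l : ι → K, (∀ t, ∑ i, l i * φ (pderiv F (e t) (f i)) = 0) → ∀ i, l i = 0) :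
    Module.finrank K ((Tan φ).map (LinearMap.funLeft K K e)) + Fintype.card ι ≤
      Fintype.card τ := by
  classical
  let J : Matrix ι τ K := fun i t => φ (pderiv F (e t) (f i))
  have hle : (Tan φ).map (LinearMap.funLeft K K e) ≤ LinearMap.ker J.mulVecLin := by
    rintro _ ⟨v, hv, rfl⟩
    rw [LinearMap.mem_ker]
    funext i
    have h1 := hv _ (hf i)
    rw [dv_apply, ← Finset.sum_subset (Finset.subset_univ (Finset.univ.image e))
      (fun j _ hj => by rw [hout i j (by simpa using hj), mul_zero]),
      Finset.sum_image fun a _ b _ hab => he hab] at h1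
    rw [Pi.zero_apply, ← h1]
    exact Finset.sum_congr rfl fun t _ => mul_comm _ _
  have hind : LinearIndependent K J.row := by
    rw [Fintype.linearIndependent_iff]
    intro l hl
    refine hJ l fun t => ?_
    have h2 := congrFun hl t
    simpa [Finset.sum_apply, J, Matrix.row] using h2
  have h3 : J.rank = Fintype.card ι := hind.rank_matrix
  have h4 := LinearMap.finrank_range_add_finrank_ker J.mulVecLin
  have h5 := Submodule.finrank_mono hle
  rw [Module.finrank_fintype_fun_eq_card] at h4
  rw [Matrix.rank] at h3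
  omega

/-- The generic point of a prime. -/
noncomputable def gen {A : Type*} [CommRing A] (P : Ideal A) [P.IsPrime] :
    A →+* FractionRing (A ⧸ P) :=
  (algebraMap (A ⧸ P) (FractionRing (A ⧸ P))).comp (Ideal.Quotient.mk P)

theorem gen_ker {A : Type*} [CommRing A] (P : Ideal A) [P.IsPrime] (g : A) :
    g ∈ P ↔ gen P g = 0 := by
  rw [gen, RingHom.comp_apply, map_eq_zero_iff _ (IsFractionRing.injective _ _),
    Ideal.Quotient.eq_zero_iff_mem]

theorem gen_frac {A : Type*} [CommRing A] (P : Ideal A) [P.IsPrime] (y : FractionRing (A ⧸ P)) :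
    ∃ a b, gen P b ≠ 0 ∧ y * gen P b = gen P a := by
  obtain ⟨⟨a, b, hb⟩, hab⟩ := IsLocalization.surj (nonZeroDivisors (A ⧸ P)) y
  obtain ⟨a, rfl⟩ := Ideal.Quotient.mk_surjective a
  obtain ⟨b, rfl⟩ := Ideal.Quotient.mk_surjective b
  refine ⟨a, b, fun h => nonZeroDivisors.ne_zero hb ?_, hab⟩
  exact Ideal.Quotient.eq_zero_iff_mem.2 ((gen_ker P b).2 h)

/-- The Jacobian criterion with the rank taken in a field `K` in which `P` is the kernel. -/
theorem jac_pt (φ : MvPowerSeries σ F →+* K) (P : Ideal (MvPowerSeries σ F))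
    (hP : ∀ g, g ∈ P ↔ φ g = 0) {c : ℕ} (f : Fin c → MvPowerSeries σ F) (hf : ∀ i, φ (f i) = 0)
    (hJ : ∀ l : Fin c → K, (∀ j, ∑ i, l i * φ (pderiv F j (f i)) = 0) → ∀ i, l i = 0) :
    ringKrullDim (MvPowerSeries σ F ⧸ P) + c ≤ Nat.card σ ∧
      ∃ Q : Ideal (MvPowerSeries σ F), Q.IsPrime ∧ Ideal.span (Set.range f) ≤ Q ∧ Q ≤ P ∧
        ∃ g, g ∉ P ∧ ∀ y ∈ Q, g * y ∈ Ideal.span (Set.range f) := by
  have hPk : P = RingHom.ker φ := Ideal.ext fun g => hP g
  have hpr : P.IsPrime := hPk ▸ RingHom.ker_isPrime φ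
  refine Jac.jac_ps f P (fun i => (hP _).2 (hf i)) fun l hl i => (hP _).2 ?_
  refine hJ (fun i => φ (l i)) (fun j => ?_) i
  have h1 := (hP _).1 (hl j)
  simpa only [map_sum, map_mul] using h1

/-- Blocks. Variables and equations are sorted into blocks; an equation depends only on the
variables of its block. At the point `φ` every block either has independent Jacobian rows or has
its coordinates determined, for derivations, by two elements less than its expected dimension.
Then the point has codimension two in the zero set, or the Jacobian criterion holds there. -/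
theorem dichotomy (φ : MvPowerSeries σ F →+* K) (P : Ideal (MvPowerSeries σ F))
    (hP : ∀ g, g ∈ P ↔ φ g = 0) (hfr : ∀ y : K, ∃ a b, φ b ≠ 0 ∧ y * φ b = φ a)
    {c : ℕ} (f : Fin c → MvPowerSeries σ F) (hf : ∀ i, φ (f i) = 0)
    {β : Type*} [Fintype β] (bv : σ → β) (be : Fin c → β)
    (hout : ∀ i j, bv j ≠ be i → φ (pderiv F j (f i)) = 0)
    (hb : ∀ b, (∀ l : {i // be i = b} → K,
        (∀ j, bv j = b → ∑ᶠ i, l i * φ (pderiv F j (f i.1)) = 0) → ∀ i, l i = 0) ∨
      ∃ s : Finset K, s.card + Nat.card {i // be i = b} + 2 ≤ Nat.card {j // bv j = b} ∧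
        ∀ D : Derivation ℤ K K, (∀ y ∈ s, D y = 0) → ∀ j, bv j = b → D (φ (X j)) = 0) :
    ringKrullDim (MvPowerSeries σ F ⧸ P) + c + 2 ≤ Nat.card σ ∨
      (ringKrullDim (MvPowerSeries σ F ⧸ P) + c ≤ Nat.card σ ∧
        ∃ Q : Ideal (MvPowerSeries σ F), Q.IsPrime ∧ Ideal.span (Set.range f) ≤ Q ∧ Q ≤ P ∧
          ∃ g, g ∉ P ∧ ∀ y ∈ Q, g * y ∈ Ideal.span (Set.range f)) := by
  classical
  by_cases hall : ∀ b, ∀ l : {i // be i = b} → K,
      (∀ j, bv j = b → ∑ᶠ i, l i * φ (pderiv F j (f i.1)) = 0) → ∀ i, l i = 0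
  · refine Or.inr (jac_pt φ P hP f hf fun l hl i => ?_)
    refine hall (be i) (fun k => l k.1) (fun j hj => ?_) ⟨i, rfl⟩
    rw [finsum_eq_sum_of_fintype, ← hl j, ← Finset.sum_subtype (Finset.univ.filter fun k => be k = be i)
      (by simp) (fun k => l k * φ (pderiv F j (f k)))]
    refine Finset.sum_subset (Finset.subset_univ _) fun k _ hk => ?_
    rw [hout k j (fun h => hk (by simp [← h, hj])), mul_zero]
  · left
    obtain ⟨b0, hb0⟩ := not_forall.1 hall
    let r : β → ℕ := fun b =>
      Module.finrank K ((Tan φ).map (LinearMap.funLeft K K (Subtype.val : {j // bv j = b} → σ)))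
    have hS : ∀ b, (∃ s : Finset K,
        s.card + Nat.card {i // be i = b} + 2 ≤ Nat.card {j // bv j = b} ∧
        ∀ D : Derivation ℤ K K, (∀ y ∈ s, D y = 0) → ∀ j, bv j = b → D (φ (X j)) = 0) →
        r b + Fintype.card {i // be i = b} + 2 ≤ Fintype.card {j // bv j = b} := by
      rintro b ⟨s, h1, h2⟩
      have h3 : r b ≤ s.card := finrank_block_le φ hfr _ s fun D hD t => h2 D hD t.1 t.2
      rw [Nat.card_eq_fintype_card, Nat.card_eq_fintype_card] at h1
      omega
    have hr : ∀ b, r b + Fintype.card {i // be i = b} + (if b = b0 then 2 else 0) ≤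
        Fintype.card {j // bv j = b} := by
      intro b
      rcases hb b with h | h
      · have hne : b ≠ b0 := fun e => hb0 (e ▸ h)
        rw [if_neg hne, add_zero]
        refine finrank_block_jac φ _ Subtype.val_injective (fun i : {i // be i = b} => f i.1)
          (fun i => hf i.1) (fun i j hj => hout i.1 j fun e => hj ⟨⟨j, e.trans i.2⟩, rfl⟩)
          fun l hl => h l fun j hj => ?_
        rw [finsum_eq_sum_of_fintype]
        exact hl ⟨j, hj⟩
      · have h4 := hS b h
        split_ifs <;> omega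
    have h5 := Finset.sum_le_sum fun b (_ : b ∈ Finset.univ) => hr b
    have h6 : ∑ b, Fintype.card {j // bv j = b} = Fintype.card σ := by
      rw [← Fintype.card_sigma]
      exact Fintype.card_congr (Equiv.sigmaFiberEquiv bv)
    have h7 : ∑ b, Fintype.card {i // be i = b} = c := by
      rw [← Fintype.card_sigma, Fintype.card_congr (Equiv.sigmaFiberEquiv be), Fintype.card_fin]
    rw [Finset.sum_add_distrib, Finset.sum_add_distrib, h6, h7, Finset.sum_ite_eq'] at h5
    simp only [Finset.mem_univ, if_true] at h5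
    have h8 : Module.finrank K (Tan φ) ≤ ∑ b, r b :=
      finrank_le_sum (fun b => (Subtype.val : {j // bv j = b} → σ))
        (fun j => ⟨bv j, ⟨j, rfl⟩, rfl⟩) _
    have h9 := dim_le_finrank φ P hP
    rw [Nat.card_eq_fintype_card]
    refine le_trans (add_le_add_left (add_le_add_left h9 _) _) ?_
    exact_mod_cast (by omega : Module.finrank K (Tan φ) + c + 2 ≤ Fintype.card σ)

end Vale.Agent.P022D.Pdeg
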