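import Vale.Agent.P022D.CA.Pow
import Vale.Agent.P022D.CA.Pdeg
import Vale.Agent.P022D.CA.BlkDefs

/-!
# P022: the ring of all coordinates modulo all equations is a domain
-/

open IsLocalRing MvPowerSeries RingTheory.Sequence

namespace Vale.Agent.P022D.CA

open Vale.Agent.P298.H25

variable {F σ β : Type} [Field F] [Fintype σ] [Fintype β] {τ ι : β → Type}
  [∀ b, Fintype (τ b)] [∀ b, Fintype (ι b)]

theorem isPrecomplete_power : IsPrecomplete (maximalIdeal (MvPowerSeries σ F))
    (MvPowerSeries σ F) := by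
  rw [Vale.Agent.P177.mvPowerSeries_maximalIdeal]
  infer_instance

/-- the generic point of a prime ideal -/
def gn {A : Type} [CommRing A] (P : Ideal A) (K : Type) [Field K] [Algebra (A ⧸ P) K] :
    A →+* K := (algebraMap (A ⧸ P) K).comp (Ideal.Quotient.mk P)

theorem gn_ker {A : Type} [CommRing A] (P : Ideal A) (K : Type) [Field K] [Algebra (A ⧸ P) K]
    [IsFractionRing (A ⧸ P) K] (g : A) : g ∈ P ↔ gn P K g = 0 := by
  rw [gn, RingHom.comp_apply, IsFractionRing.to_map_eq_zero_iff, Ideal.Quotient.eq_zero_iff_mem]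

theorem gn_frac {A : Type} [CommRing A] (P : Ideal A) [P.IsPrime] (K : Type) [Field K]
    [Algebra (A ⧸ P) K] [IsFractionRing (A ⧸ P) K] (y : K) :
    ∃ a b, gn P K b ≠ 0 ∧ y * gn P K b = gn P K a := by
  obtain ⟨a, b, hb, rfl⟩ := IsFractionRing.div_surjective (A := A ⧸ P) y
  obtain ⟨a, rfl⟩ := Ideal.Quotient.mk_surjective a
  obtain ⟨b, rfl⟩ := Ideal.Quotient.mk_surjective b
  have h : gn P K b ≠ 0 := IsFractionRing.to_map_ne_zero_of_mem_nonZeroDivisors hb
  exact ⟨a, b, h, div_mul_cancel₀ _ h⟩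

omit [Fintype β] in
theorem blk_at (e : (Σ b, τ b) ↪ σ) (f : ∀ b, ι b → MvPowerSeries (τ b) F) (b : β)
    (hb : BlkPt (f b)) (P : Ideal (MvPowerSeries σ F)) [P.IsPrime] (hP : ∀ p, eqs e f p ∈ P)
    (K : Type) [Field K] [Algebra (MvPowerSeries σ F ⧸ P) K]
    [IsFractionRing (MvPowerSeries σ F ⧸ P) K] :
    (∀ l : ι b → K,
      (∀ t, ∑ i, l i * gn P K (pderiv F (emb e b t) (eqs e f ⟨b, i⟩)) = 0) → ∀ i, l i = 0) ∨
      ∃ s : Finset K, s.card + Fintype.card (ι b) + 2 ≤ Fintype.card (τ b) ∧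
        ∀ D : Derivation ℤ K K, (∀ y ∈ s, D y = 0) →
          ∀ t, D (gn P K (X (emb e b t))) = 0 := by
  have hloc : IsLocalRing (MvPowerSeries σ F ⧸ P) :=
    IsLocalRing.of_surjective' (Ideal.Quotient.mk P) Ideal.Quotient.mk_surjective
  have hmem : ∀ x, Ideal.Quotient.mk P x ∈ maximalIdeal (MvPowerSeries σ F ⧸ P) ↔
      constantCoeff x = 0 := fun x =>
    (mem_max_iff (Ideal.Quotient.mk P) Ideal.Quotient.mk_surjective).trans mem_max_power
  have hmap : (maximalIdeal (MvPowerSeries σ F)).map (Ideal.Quotient.mk P) =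
      maximalIdeal (MvPowerSeries σ F ⧸ P) := by
    ext y
    rw [Ideal.mem_map_iff_of_surjective _ Ideal.Quotient.mk_surjective]
    constructor
    · rintro ⟨x, hx, rfl⟩
      exact (hmem x).2 (mem_max_power.1 hx)
    · intro hy
      obtain ⟨x, rfl⟩ := Ideal.Quotient.mk_surjective y
      exact ⟨x, mem_max_power.2 ((hmem x).1 hy), rfl⟩
  have hpc : IsPrecomplete (maximalIdeal (MvPowerSeries σ F ⧸ P)) (MvPowerSeries σ F ⧸ P) := by
    have := isPrecomplete_power (F := F) (σ := σ)
    rw [← hmap]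
    exact isPrecomplete_of_surj _ Ideal.Quotient.mk_surjective _
  have h := hb (MvPowerSeries σ F ⧸ P)
    ((Ideal.Quotient.mk P).comp (rename (R := F) (emb e b)).toRingHom)
    (fun y => by
      obtain ⟨x, rfl⟩ := Ideal.Quotient.mk_surjective y
      refine ⟨constantCoeff x, ?_⟩
      change Ideal.Quotient.mk P x - Ideal.Quotient.mk P (rename (emb e b) (C _)) ∈ _
      rw [← map_sub, hmem, rename_C, map_sub, constantCoeff_C, sub_self])
    (fun t => by
      change Ideal.Quotient.mk P (rename (emb e b) (X t)) ∈ _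
      rw [hmem, rename_X, constantCoeff_X])
    (fun x hx => by
      change Ideal.Quotient.mk P (rename (emb e b) x) ∈ _
      rw [hmem, constantCoeff_rename]
      exact mem_max_power.1 hx)
    (fun i => Ideal.Quotient.eq_zero_iff_mem.2 (hP ⟨b, i⟩)) K
  rcases h with h | ⟨s, hs, h⟩
  · refine Or.inl fun l hl => h l fun t => ?_
    rw [← hl t]
    refine Finset.sum_congr rfl fun i _ => ?_
    congr 1
    exact congrArg (gn P K) (pderiv_rename (emb e b) t (f b i)).symm
  · refine Or.inr ⟨s, hs, fun D hD t => ?_⟩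
    rw [← h D hD t]
    exact congrArg D (congrArg (gn P K) (rename_X (emb e b) t).symm)

theorem blocks_hyp (e : (Σ b, τ b) ↪ σ) (f : ∀ b, ι b → MvPowerSeries (τ b) F)
    (hb : ∀ b, BlkPt (f b)) {c : ℕ} (q : Fin c ≃ Σ b, ι b)
    (P : Ideal (MvPowerSeries σ F)) [P.IsPrime] (hP : ∀ p, eqs e f p ∈ P)
    (K : Type) [Field K] [Algebra (MvPowerSeries σ F ⧸ P) K]
    [IsFractionRing (MvPowerSeries σ F ⧸ P) K] :
    ringKrullDim (MvPowerSeries σ F ⧸ P) + c + 2 ≤ Nat.card σ ∨
      (ringKrullDim (MvPowerSeries σ F ⧸ P) + c ≤ Nat.card σ ∧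
        ∃ Q : Ideal (MvPowerSeries σ F), Q.IsPrime ∧
          Ideal.span (Set.range fun i => eqs e f (q i)) ≤ Q ∧ Q ≤ P ∧
          ∃ g, g ∉ P ∧ ∀ y ∈ Q, g * y ∈ Ideal.span (Set.range fun i => eqs e f (q i))) := by
  classical
  obtain ⟨bv, hbv1, hbv2⟩ : ∃ bv : σ → Option β, (∀ b t, bv (emb e b t) = some b) ∧
      ∀ j b, bv j = some b → ∃ t, emb e b t = j := by
    refine ⟨fun j => if h : ∃ p, e p = j then some h.choose.1 else none, fun b t => ?_,
      fun j b hj => ?_⟩
    · have h : ∃ p, e p = emb e b t := ⟨⟨b, t⟩, rfl⟩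
      have h1 : h.choose = ⟨b, t⟩ := e.injective h.choose_spec
      simp only [dif_pos h, h1]
    · by_cases h : ∃ p, e p = j
      · simp only [dif_pos h, Option.some.injEq] at hj
        subst hj
        exact ⟨h.choose.2, h.choose_spec⟩
      · simp only [dif_neg h] at hj
        exact absurd hj.symm (Option.some_ne_none _)
  refine Pdeg.dichotomy (gn P K) P (gn_ker P K) (gn_frac P K)
    (fun i => eqs e f (q i)) (fun i => (gn_ker P K _).1 (hP _)) bv (fun i => some (q i).1)
    (fun i j hj => ?_) (fun b => ?_)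
  · rw [eqs, pderiv_rename_out, map_zero]
    rintro ⟨t, rfl⟩
    exact hj (hbv1 _ t)
  · cases b with
    | none => exact Or.inl fun l _ i => absurd i.2 (Option.some_ne_none _)
    | some b =>
      let r : ι b ≃ {i : Fin c // some (q i).1 = some b} := Equiv.ofBijective
        (fun i => ⟨q.symm ⟨b, i⟩, by rw [Equiv.apply_symm_apply]⟩) (by
          constructor
          · intro i i' h
            have h1 : (⟨b, i⟩ : Σ b, ι b) = ⟨b, i'⟩ := q.symm.injective (congrArg Subtype.val h)
            exact eq_of_heq (Sigma.mk.inj h1).2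
          · rintro ⟨i, hi⟩
            have h1 : (q i).1 = b := Option.some.inj hi
            subst h1
            exact ⟨(q i).2, Subtype.ext (q.symm_apply_apply i)⟩)
      have hr : ∀ i, q (r i).1 = ⟨b, i⟩ := fun i => q.apply_symm_apply _
      let v : τ b ≃ {j : σ // bv j = some b} := Equiv.ofBijective
        (fun t => ⟨emb e b t, hbv1 b t⟩) (by
          constructor
          · intro t t' h
            exact (emb e b).injective (congrArg Subtype.val h)
          · rintro ⟨j, hj⟩
            obtain ⟨t, rfl⟩ := hbv2 j b hj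
            exact ⟨t, rfl⟩)
      rcases blk_at e f b (hb b) P hP K with h | ⟨s, hs, h⟩
      · refine Or.inl fun l hl i => ?_
        have h1 := h (fun i => l (r i)) (fun t => by
          rw [← hl (emb e b t) (hbv1 b t), finsum_eq_sum_of_fintype, ← r.sum_comp]
          refine Finset.sum_congr rfl fun i _ => ?_
          rw [hr]) (r.symm i)
        rwa [Equiv.apply_symm_apply] at h1
      · refine Or.inr ⟨s, ?_, fun D hD j hj => ?_⟩
        · rw [← Nat.card_congr r, ← Nat.card_congr v, Nat.card_eq_fintype_card,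
            Nat.card_eq_fintype_card]
          exact hs
        · obtain ⟨t, rfl⟩ := hbv2 j b hj
          exact h D hD t

omit [Fintype σ] [Fintype β] [∀ b, Fintype (τ b)] [∀ b, Fintype (ι b)] in
theorem range_eqs {R : Type} [CommRing R] (g : (Σ b, ι b) → R) {c : ℕ} (q : Fin c ≃ Σ b, ι b) :
    (Set.range fun i => g (q i)) = Set.range g :=
  q.surjective.range_comp g

/-- The ring of all coordinates modulo all equations is a Cohen-Macaulay domain of the expected
dimension. -/
theorem dom_blocks (e : (Σ b, τ b) ↪ σ) (f : ∀ b, ι b → MvPowerSeries (τ b) F)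
    (h0 : ∀ b i, constantCoeff (f b i) = 0) (hb : ∀ b, BlkPt (f b)) :
    ∃ d : ℕ, d + Fintype.card (Σ b, ι b) = Fintype.card σ ∧
      (Ideal.span (Set.range (eqs e f))).IsPrime ∧
      ringKrullDim (MvPowerSeries σ F ⧸ Ideal.span (Set.range (eqs e f))) = d ∧
      DepthGE (MvPowerSeries σ F) (MvPowerSeries σ F ⧸ Ideal.span (Set.range (eqs e f))) d := by
  let q := (Fintype.equivFin (Σ b, ι b)).symm
  obtain ⟨d, h1, h2, h3, h4, -⟩ := dom_power (fun i => eqs e f (q i))
    (fun i => by rw [eqs, constantCoeff_rename, h0]) (fun P hP hle => by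
      have h := blocks_hyp e f hb q P (fun p => hle (Ideal.subset_span
        ⟨q.symm p, by simp only [Equiv.apply_symm_apply]⟩)) (FractionRing (MvPowerSeries σ F ⧸ P))
      rwa [add_assoc, ← Nat.cast_ofNat (R := WithBot ℕ∞), ← Nat.cast_add] at h)
  rw [range_eqs (eqs e f) q] at h2 h3 h4
  rw [Nat.card_eq_fintype_card] at h1
  exact ⟨d, h1, h2, h3, h4⟩

/-- The same over `O`: a domain, flat over `O`, Cohen-Macaulay of the expected dimension, with
integral special fibre. -/
theorem dom_blocks_lift {O : Type} [CommRing O] [IsLocalRing O] [IsNoetherianRing O]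
    (ψ : O →+* F) (hψ : Function.Surjective ψ) {π : O}
    (hker : RingHom.ker ψ = Ideal.span {π}) (hπ : ∀ a, π * a = 0 → a = 0)
    (e : (Σ b, τ b) ↪ σ) (f : ∀ b, ι b → MvPowerSeries (τ b) O)
    (h0 : ∀ b i, ψ (constantCoeff (f b i)) = 0)
    (hb : ∀ b, BlkPt (fun i => MvPowerSeries.map ψ (f b i))) :
    ∃ d : ℕ, d + Fintype.card (Σ b, ι b) = Fintype.card σ ∧
      (Ideal.span (Set.range (eqs e f))).IsPrime ∧
      (Ideal.span (Set.range (eqs e f)) ⊔ Ideal.span {C π}).IsPrime ∧
      (∀ a, C π * a ∈ Ideal.span (Set.range (eqs e f)) → a ∈ Ideal.span (Set.range (eqs e f))) ∧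
      ringKrullDim (MvPowerSeries σ O ⧸ Ideal.span (Set.range (eqs e f))) = (d + 1 : ℕ) ∧
      ringKrullDim (MvPowerSeries σ O ⧸
        (Ideal.span (Set.range (eqs e f)) ⊔ Ideal.span {C π})) = d ∧
      DepthGE (MvPowerSeries σ O) (MvPowerSeries σ O ⧸ Ideal.span (Set.range (eqs e f)))
        (d + 1) := by
  let q := (Fintype.equivFin (Σ b, ι b)).symm
  obtain ⟨d, h1, h2, h3, -⟩ := dom_blocks e (fun b i => MvPowerSeries.map ψ (f b i))
    (fun b i => by rw [constantCoeff_map]; exact h0 b i) hb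
  have h5 : eqs e (fun b i => MvPowerSeries.map ψ (f b i)) =
      fun p => MvPowerSeries.map ψ (eqs e f p) := by
    funext p
    exact rename_map _ ψ _
  rw [h5] at h2 h3
  have h6 : (Ideal.span (Set.range fun p => MvPowerSeries.map ψ (eqs e f p))).comap
      (MvPowerSeries.map (σ := σ) ψ) =
      Ideal.span (Set.range (eqs e f)) ⊔ Ideal.span {C π} := by
    rw [← ker_map ψ hker, RingHom.ker_eq_comap_bot,
      ← Ideal.comap_map_of_surjective _ (map_surj ψ hψ), Ideal.map_span, ← Set.range_comp]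
    rfl
  obtain ⟨h7, h8, h9, h10, -⟩ := dom_power_lift ψ hψ hker hπ (fun i => eqs e f (q i)) (d := d)
    (by rw [Nat.card_eq_fintype_card]; exact h1)
    (by rw [range_eqs (fun p => MvPowerSeries.map ψ (eqs e f p)) q]; exact h2)
    (by rw [range_eqs (fun p => MvPowerSeries.map ψ (eqs e f p)) q]; exact h3)
  rw [range_eqs (eqs e f) q] at h7 h8 h9 h10
  refine ⟨d, h1, h7, h6 ▸ h2.comap _, h8, h9, ?_, h10⟩
  rw [← h6, ringKrullDim_eq_of_ringEquiv (comapEquiv _ (map_surj ψ hψ) _), h3]

end Vale.Agent.P022D.CA
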