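import Vale.Agent.P022D.CA.Dep

/-!
# Hartshorne connectedness and the primality criterion for complete intersections
-/

universe u

open RingTheory.Sequence IsLocalRing Pointwise Module

namespace Vale.Agent.P022D.CA

open Vale.Agent.P298.H25

section loc

variable {A : Type u} [CommRing A] [IsLocalRing A] [IsNoetherianRing A]

/-- Hartshorne: if `I₁ I₂ = 0` in a ring of depth `d` and `dim R / (I₁ + I₂) ≤ d - 2`, then one of
the two ideals contains a regular element. -/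
theorem hartshorne {I I₁ I₂ : Ideal A} (hI : I ≠ ⊤) {k : ℕ} (h : DepthGE A (A ⧸ I) (k + 1))
    (h1 : I₁ ≤ maximalIdeal A) (h2 : I₂ ≤ maximalIdeal A) (h12 : I₁ * I₂ ≤ I)
    (hd : ¬ (k : WithBot ℕ∞) ≤ ringKrullDim (A ⧸ (I ⊔ (I₁ ⊔ I₂)))) :
    (∃ x ∈ I₁ ⊔ I, ∀ a, x * a ∈ I → a ∈ I) ∨ ∃ x ∈ I₂ ⊔ I, ∀ a, x * a ∈ I → a ∈ I := by
  have hd' : ¬ ((k + 1 : ℕ) : WithBot ℕ∞) ≤ ringKrullDim (A ⧸ (I ⊔ (I₁ ⊔ I₂))) := fun h3 =>
    hd (le_trans (by exact_mod_cast Nat.le_succ k) h3)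
  obtain ⟨x, hx, hreg⟩ := exists_nzd h hd'
  have hxm : x ∈ maximalIdeal A := sup_le h1 h2 hx
  obtain ⟨i, hi, j, hj, hij⟩ := Submodule.mem_sup.1 hx
  have hprod : ∀ a ∈ I₁, ∀ b ∈ I₂, a * b ∈ I := fun a ha b hb => h12 (Ideal.mul_mem_mul ha hb)
  have hi' : i ∈ I ⊔ Ideal.span {x} := by
    by_contra hcon
    obtain ⟨P, hP, hle⟩ := exists_ass hcon
    refine hd (dimGE_mono ?_ (ass_dim (depth_step hI hxm h hreg) hP))
    refine sup_le (le_sup_left.trans (le_of_ass hP)) (sup_le (fun a ha => hle a ?_)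
      (fun b hb => hle b ?_))
    · have e : a * i = -(a * j) + a * x := by rw [← hij]; ring
      rw [e]
      exact Submodule.add_mem_sup (I.neg_mem (hprod a ha j hj))
        (Ideal.mul_mem_left _ _ (Ideal.mem_span_singleton_self x))
    · rw [mul_comm]
      exact Ideal.mem_sup_left (hprod i hi b hb)
  obtain ⟨t, ht, y, hy, hty⟩ := Submodule.mem_sup.1 hi'
  obtain ⟨e, rfl⟩ := Ideal.mem_span_singleton'.1 hy
  have hj' : j = (1 - e) * x - t := by linear_combination hij + hty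
  have he : e * (1 - e) ∈ I := by
    refine hreg _ (hreg _ ?_)
    have e1 : x * (x * (e * (1 - e))) = i * j + t * (e * x - (1 - e) * x + t) := by
      rw [← hty, hj']; ring
    rw [e1]
    exact I.add_mem (hprod i hi j hj) (I.mul_mem_right _ ht)
  rcases isUnit_or_isUnit_one_sub_self e with hu | hu
  · left
    have h3 : 1 - e ∈ I := (Ideal.unit_mul_mem_iff_mem I hu).1 he
    refine ⟨x, ?_, hreg⟩
    rw [← hij, hj']
    exact Submodule.add_mem_sup hi (I.sub_mem (I.mul_mem_right _ h3) ht)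
  · right
    have h3 : e ∈ I := (Ideal.mul_unit_mem_iff_mem I hu).1 he
    refine ⟨x, ?_, hreg⟩
    rw [← hij, add_comm, ← hty]
    exact Submodule.add_mem_sup hj (I.add_mem ht (I.mul_mem_right _ h3))

/-- Primality from depth: at every prime of dimension at least `d - 1` the localisation of
`A ⧸ I` is a domain. -/
theorem isPrime_of_depth {I : Ideal A} (hI : I ≠ ⊤) {d : ℕ} (h : DepthGE A (A ⧸ I) d)
    (hdim : ¬ ((d + 1 : ℕ) : WithBot ℕ∞) ≤ ringKrullDim (A ⧸ I))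
    (hgood : ∀ P : Ideal A, P.IsPrime → I ≤ P →
      ((d - 1 : ℕ) : WithBot ℕ∞) ≤ ringKrullDim (A ⧸ P) →
      ∃ Q : Ideal A, Q.IsPrime ∧ I ≤ Q ∧ Q ≤ P ∧ ∃ g, g ∉ P ∧ ∀ q ∈ Q, g * q ∈ I) :
    I.IsPrime := by
  classical
  have hnt : Nontrivial (A ⧸ I) := Ideal.Quotient.nontrivial_iff.2 hI
  have hsub : ((d - 1 : ℕ) : WithBot ℕ∞) ≤ (d : ℕ) := by exact_mod_cast Nat.sub_le d 1
  -- a prime between `I` and an associated prime is the associated prime
  have hmin : ∀ P, IsAssociatedPrime P (A ⧸ I) → ∀ Q : Ideal A, Q.IsPrime → I ≤ Q → Q ≤ P →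
      Q = P := by
    intro P hP Q hQ hIQ hQP
    by_contra hne
    exact hdim (dimGE_mono hIQ (dimGE_succ hQ (lt_of_le_of_ne hQP hne) (ass_dim h hP)))
  -- `I` is the intersection of its associated primes
  have hrad : ∀ a, (∀ P, IsAssociatedPrime P (A ⧸ I) → a ∈ P) → a ∈ I := by
    intro a ha
    by_contra hcon
    obtain ⟨P, hP, hle⟩ := exists_ass hcon
    obtain ⟨Q, hQ, hIQ, hQP, g, hg, hgQ⟩ :=
      hgood P hP.isPrime (le_of_ass hP) (hsub.trans (ass_dim h hP))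
    have := hmin P hP Q hQ hIQ hQP
    subst this
    exact hg (hle g (hgQ a (ha Q hP)))
  obtain ⟨P₁, hP₁⟩ := associatedPrimes.nonempty A (A ⧸ I)
  have hP₁' : IsAssociatedPrime P₁ (A ⧸ I) := hP₁
  suffices huniq : ∀ P, IsAssociatedPrime P (A ⧸ I) → P = P₁ by
    have : I = P₁ := le_antisymm (le_of_ass hP₁') fun a ha =>
      hrad a fun P hP => huniq P hP ▸ ha
    rw [this]
    exact hP₁'.isPrime
  by_contra hcon
  push Not at hcon
  obtain ⟨P₂, hP₂, hne⟩ := hcon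
  obtain ⟨S, hS⟩ : ∃ S : Finset (Ideal A),
      ∀ P, P ∈ S ↔ P ≠ P₁ ∧ IsAssociatedPrime P (A ⧸ I) := by
    refine ⟨(associatedPrimes.finite A (A ⧸ I)).toFinset.erase P₁, fun P => ?_⟩
    rw [Finset.mem_erase, Set.Finite.mem_toFinset]
    rfl
  have h2 : S.inf id ≤ P₂ := Finset.inf_le (f := id) ((hS P₂).2 ⟨hne, hP₂⟩)
  have h12 : P₁ * S.inf id ≤ I := by
    intro a ha
    refine hrad a fun P hP => ?_
    by_cases hPP : P = P₁
    · rw [hPP]; exact (Ideal.mul_le_inf ha).1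
    · exact (Finset.inf_le (f := id) ((hS P).2 ⟨hPP, hP⟩) : S.inf id ≤ P) (Ideal.mul_le_inf ha).2
  have hd : ¬ ((d - 1 : ℕ) : WithBot ℕ∞) ≤ ringKrullDim (A ⧸ (I ⊔ (P₁ ⊔ S.inf id))) := by
    intro h3
    obtain ⟨P, hP, hle, hdP⟩ := dimGE_prime h3
    obtain ⟨Q, hQ, hIQ, -, g, hg, hgQ⟩ := hgood P hP (le_sup_left.trans hle) hdP
    have key : ∀ P', IsAssociatedPrime P' (A ⧸ I) → P' ≤ P → Q = P' := by
      intro P' hP' hle'
      refine hmin P' hP' Q hQ hIQ fun q hq => ?_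
      exact (hP'.isPrime.mem_or_mem (le_of_ass hP' (hgQ q hq))).resolve_left
        fun h4 => hg (hle' h4)
    obtain ⟨P', hP'S, hP'⟩ := (hP.inf_le' (s := S) (f := id)).1
      (le_sup_right.trans (le_sup_right.trans hle))
    obtain ⟨hne', hP'a⟩ := (hS P').1 hP'S
    exact hne' ((key P' hP'a hP').symm.trans
      (key P₁ hP₁' (le_sup_left.trans (le_sup_right.trans hle))))
  have hm1 : P₁ ≤ maximalIdeal A := le_maximalIdeal hP₁'.isPrime.ne_top
  have hm2 : S.inf id ≤ maximalIdeal A := h2.trans (le_maximalIdeal hP₂.isPrime.ne_top)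
  cases d with
  | zero =>
    apply hd
    refine dimGE_mono (sup_le (le_maximalIdeal hI) (sup_le hm1 hm2)) ?_
    rw [ringKrullDim_eq_zero_of_isField
      ((Ideal.Quotient.maximal_ideal_iff_isField_quotient _).1 (maximalIdeal.isMaximal A))]
    simp
  | succ k =>
    rcases hartshorne hI h hm1 hm2 h12 hd with ⟨x, hx, hreg⟩ | ⟨x, hx, hreg⟩
    · exact notMem_of_associated hP₁' (smulRegular_iff.2 hreg)
        (sup_le le_rfl (le_of_ass hP₁') hx)
    · exact notMem_of_associated hP₂ (smulRegular_iff.2 hreg)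
        (sup_le h2 (le_of_ass hP₂) hx)

/-- The primality criterion for complete intersections in a Cohen-Macaulay local ring. -/
theorem dom_list {n : ℕ} (hA : DepthGE A A n) (fs : List A) (hm : ∀ f ∈ fs, f ∈ maximalIdeal A)
    (hyp : ∀ P : Ideal A, P.IsPrime → Ideal.ofList fs ≤ P →
      ringKrullDim (A ⧸ P) + (fs.length + 2 : ℕ) ≤ n ∨
      (ringKrullDim (A ⧸ P) + fs.length ≤ n ∧
        ∃ Q : Ideal A, Q.IsPrime ∧ Ideal.ofList fs ≤ Q ∧ Q ≤ P ∧
          ∃ g, g ∉ P ∧ ∀ q ∈ Q, g * q ∈ Ideal.ofList fs)) :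
    ∃ d : ℕ, d + fs.length = n ∧ (Ideal.ofList fs).IsPrime ∧
      ringKrullDim (A ⧸ Ideal.ofList fs) = d ∧ DepthGE A (A ⧸ Ideal.ofList fs) d ∧
      IsWeaklyRegular A fs := by
  have hle : Ideal.ofList fs ≤ maximalIdeal A := Ideal.span_le.2 fun f hf => hm f hf
  have hI : Ideal.ofList fs ≠ ⊤ := ne_top_of_le_ne_top (maximalIdeal.isMaximal A).ne_top hle
  have hb : ∀ (P : Ideal A) (k : ℕ), P.IsPrime → Ideal.ofList fs ≤ P →
      (k : WithBot ℕ∞) ≤ ringKrullDim (A ⧸ P) → k + fs.length ≤ n := by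
    intro P k hP hIP hk
    rcases hyp P hP hIP with h1 | ⟨h1, -⟩
    · have := nat_le_of_dim hk h1
      omega
    · exact nat_le_of_dim hk h1
  have hc : 0 + fs.length ≤ n := by
    refine hb (maximalIdeal A) 0 inferInstance hle ?_
    rw [ringKrullDim_eq_zero_of_isField
      ((Ideal.Quotient.maximal_ideal_iff_isField_quotient _).1 (maximalIdeal.isMaximal A))]
    simp
  obtain ⟨d, hd⟩ : ∃ d, d + fs.length = n := ⟨n - fs.length, by omega⟩
  have hdim : ¬ ((d + 1 : ℕ) : WithBot ℕ∞) ≤ ringKrullDim (A ⧸ Ideal.ofList fs) := by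
    intro h1
    obtain ⟨P, hP, hIP, h2⟩ := dimGE_prime h1
    have := hb P _ hP hIP h2
    omega
  have e0 : A ≃ₗ[A] A ⧸ (⊥ : Ideal A) := (Submodule.quotEquivOfEqBot ⊥ rfl).symm
  obtain ⟨h1, h2⟩ := depth_ofList fs (I := ⊥) (k := d) bot_ne_top hm
    (by rw [hd]; exact depth_congr e0 hA) (fun h3 => hdim (dimGE_mono le_sup_right h3))
  have : Nontrivial (A ⧸ (⊥ ⊔ Ideal.ofList fs)) := by
    rw [bot_sup_eq]; exact Ideal.Quotient.nontrivial_iff.2 hI
  have h3 : DepthGE A (A ⧸ Ideal.ofList fs) d :=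
    depth_congr (Submodule.quotEquivOfEq _ _ (bot_sup_eq _)) h1
  refine ⟨d, hd, isPrime_of_depth hI h3 hdim ?_, le_antisymm (dim_le_of_not hdim) ?_, h3,
    (e0.isWeaklyRegular_congr fs).2 h2⟩
  · intro P hP hIP hk
    rcases hyp P hP hIP with h4 | ⟨-, h4⟩
    · have := nat_le_of_dim hk h4
      omega
    · exact h4
  · have : Nontrivial (A ⧸ Ideal.ofList fs) := Ideal.Quotient.nontrivial_iff.2 hI
    obtain ⟨P, hP⟩ := associatedPrimes.nonempty A (A ⧸ Ideal.ofList fs)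
    exact dimGE_mono (le_of_ass hP) (ass_dim h3 hP)

/-- Lifting primality along a regular element. -/
theorem isPrime_of_sup {I : Ideal A} {x : A} (hx : x ∈ maximalIdeal A)
    (hreg : ∀ a, x * a ∈ I → a ∈ I) (hp : (I ⊔ Ideal.span {x}).IsPrime) : I.IsPrime := by
  have hI : I ≠ ⊤ := ne_top_of_le_ne_top hp.ne_top le_sup_left
  have key : ∀ a, a ∉ I → ∃ (s : ℕ) (b : A), b ∉ I ⊔ Ideal.span {x} ∧ a - x ^ s * b ∈ I := by
    intro a ha
    by_contra hcon
    push Not at hcon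
    have h1 : ∀ s : ℕ, ∃ b, a - x ^ s * b ∈ I := by
      intro s
      induction s with
      | zero => exact ⟨a, by simp⟩
      | succ s ih =>
        obtain ⟨b, hb⟩ := ih
        have hb' : b ∈ I ⊔ Ideal.span {x} := by
          by_contra h2
          exact hcon s b h2 hb
        obtain ⟨t, ht, y, hy, hty⟩ := Submodule.mem_sup.1 hb'
        obtain ⟨e, rfl⟩ := Ideal.mem_span_singleton'.1 hy
        refine ⟨e, ?_⟩
        have e1 : a - x ^ (s + 1) * e = (a - x ^ s * b) + x ^ s * t := by rw [← hty]; ring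
        rw [e1]
        exact I.add_mem hb (I.mul_mem_left _ ht)
    have h2 := Ideal.iInf_pow_smul_eq_bot_of_isLocalRing (M := A ⧸ I) (maximalIdeal A)
      (maximalIdeal.isMaximal A).ne_top
    have h3 : Ideal.Quotient.mk I a ∈ (⨅ s : ℕ, maximalIdeal A ^ s • (⊤ : Submodule A (A ⧸ I))) := by
      rw [Submodule.mem_iInf]
      intro s
      obtain ⟨b, hb⟩ := h1 s
      have e1 : Ideal.Quotient.mk I a = x ^ s • Ideal.Quotient.mk I b :=
        Ideal.Quotient.eq.2 hb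
      rw [e1]
      exact Submodule.smul_mem_smul (Ideal.pow_mem_pow hx s) trivial
    rw [h2, Submodule.mem_bot] at h3
    exact ha (Ideal.Quotient.eq_zero_iff_mem.1 h3)
  have hpow : ∀ (s : ℕ) (a : A), x ^ s * a ∈ I → a ∈ I := by
    intro s
    induction s with
    | zero => intro a ha; simpa using ha
    | succ s ih =>
      intro a ha
      refine ih a (hreg _ ?_)
      rwa [← mul_assoc, ← pow_succ']
  refine ⟨hI, fun {a b} hab => ?_⟩
  by_contra hcon
  push Not at hcon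
  obtain ⟨s, a', ha', ha⟩ := key a hcon.1
  obtain ⟨t, b', hb', hb⟩ := key b hcon.2
  have h1 : a' * b' ∈ I := by
    refine hpow (s + t) _ ?_
    have e1 : x ^ (s + t) * (a' * b') =
        a * b - (a - x ^ s * a') * b - (x ^ s * a') * (b - x ^ t * b') := by ring
    rw [e1]
    exact I.sub_mem (I.sub_mem hab (I.mul_mem_right _ ha)) (I.mul_mem_left _ hb)
  rcases hp.mem_or_mem (Ideal.mem_sup_left h1) with h2 | h2
  · exact ha' h2
  · exact hb' h2

end loc

end Vale.Agent.P022D.CA
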