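import Vale.Agent.P022D.CA.Dom

/-!
# The primality criterion in power series rings over a field and over a discrete valuation ring
-/

universe u

open RingTheory.Sequence IsLocalRing Pointwise Module

namespace Vale.Agent.P022D.CA

open Vale.Agent.P298.H25

section transfer

variable {A B : Type u} [CommRing A] [IsLocalRing A] [IsNoetherianRing A]
  [CommRing B] [IsLocalRing B] [IsNoetherianRing B]

omit [IsNoetherianRing A] [IsNoetherianRing B] in
theorem mem_max_iff (φ : B →+* A) (hφ : Function.Surjective φ) {b : B} :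
    φ b ∈ maximalIdeal A ↔ b ∈ maximalIdeal B := by
  have h := Ideal.comap_isMaximal_of_surjective φ hφ (K := maximalIdeal A)
  rw [← Ideal.mem_comap, eq_maximalIdeal h]

/-- The quotient by an ideal and by its preimage under a surjection. -/
noncomputable def comapEquiv {A B : Type u} [CommRing A] [CommRing B] (φ : B →+* A)
    (hφ : Function.Surjective φ) (J : Ideal A) : (B ⧸ J.comap φ) ≃+* A ⧸ J :=
  RingEquiv.ofBijective (Ideal.quotientMap J φ le_rfl)
    ⟨Ideal.quotientMap_injective, Ideal.quotientMap_surjective hφ⟩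

theorem depth_comap_iff (φ : B →+* A) (hφ : Function.Surjective φ) {J : Ideal A} (hJ : J ≠ ⊤)
    {k : ℕ} : DepthGE B (B ⧸ J.comap φ) k ↔ DepthGE A (A ⧸ J) k := by
  have : Nontrivial (A ⧸ J) := Ideal.Quotient.nontrivial_iff.2 hJ
  have : Nontrivial (B ⧸ J.comap φ) := Ideal.Quotient.nontrivial_iff.2 (Ideal.comap_ne_top φ hJ)
  have key : ∀ rs : List B, IsRegular (B ⧸ J.comap φ) rs ↔ IsRegular (A ⧸ J) (rs.map φ) := by
    intro rs
    refine AddEquiv.isRegular_congr (e := (comapEquiv φ hφ J).toAddEquiv) ?_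
    refine List.forall₂_map_right_iff.2 (List.forall₂_same.2 fun r _ x => ?_)
    obtain ⟨x, rfl⟩ := Ideal.Quotient.mk_surjective x
    change Ideal.Quotient.mk J (φ (r * x)) = Ideal.Quotient.mk J (φ r * φ x)
    rw [map_mul]
  constructor
  · intro h
    obtain ⟨rs, hlen, hm, hreg⟩ := depth_exists h
    have h1 := DepthGE.of_isRegular (rs := rs.map φ) (fun r hr => by
      obtain ⟨s, hs, rfl⟩ := List.mem_map.1 hr
      exact (mem_max_iff φ hφ).2 (hm s hs)) ((key rs).1 hreg)
    rwa [List.length_map, hlen] at h1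
  · intro h
    obtain ⟨rs, hlen, hm, hreg⟩ := depth_exists h
    have hrs : (rs.map (Function.surjInv hφ)).map φ = rs := by
      rw [List.map_map]
      exact (List.map_congr_left fun r _ => Function.surjInv_eq hφ r).trans (List.map_id _)
    have h1 := DepthGE.of_isRegular (rs := rs.map (Function.surjInv hφ)) (fun r hr => by
      obtain ⟨s, hs, rfl⟩ := List.mem_map.1 hr
      refine (mem_max_iff φ hφ).1 ?_
      rw [Function.surjInv_eq hφ]
      exact hm s hs) ((key _).2 (by rw [hrs]; exact hreg))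
    rwa [List.length_map, hlen] at h1

theorem depth_bot_iff {k : ℕ} : DepthGE A (A ⧸ (⊥ : Ideal A)) k ↔ DepthGE A A k := by
  have : Nontrivial (A ⧸ (⊥ : Ideal A)) := Ideal.Quotient.nontrivial_iff.2 bot_ne_top
  exact ⟨depth_congr (Submodule.quotEquivOfEqBot ⊥ rfl),
    depth_congr (Submodule.quotEquivOfEqBot ⊥ rfl).symm⟩

theorem depth_ringEquiv (e : B ≃+* A) {k : ℕ} (h : DepthGE A A k) : DepthGE B B k := by
  have h1 := (depth_comap_iff (e : B →+* A) e.surjective bot_ne_top).2 (depth_bot_iff.2 h)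
  have h2 : (⊥ : Ideal A).comap (e : B →+* A) = ⊥ :=
    (RingHom.injective_iff_ker_eq_bot (e : B →+* A)).1 e.injective
  rw [h2] at h1
  exact depth_bot_iff.1 h1

/-- The depth of `A ⧸ J` over `A` is its depth over itself. -/
theorem depth_self {J : Ideal A} [IsLocalRing (A ⧸ J)] {k : ℕ} (h : DepthGE A (A ⧸ J) k) :
    DepthGE (A ⧸ J) (A ⧸ J) k := by
  refine depth_bot_iff.1 ((depth_comap_iff (Ideal.Quotient.mk J) Ideal.Quotient.mk_surjective
    bot_ne_top).1 ?_)
  have h2 : (⊥ : Ideal (A ⧸ J)).comap (Ideal.Quotient.mk J) = J := Ideal.mk_ker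
  rw [h2]
  exact h

theorem depth_unstep {I : Ideal A} (hI : I ≠ ⊤) {x : A} (hx : x ∈ maximalIdeal A) {k : ℕ}
    (hreg : ∀ a, x * a ∈ I → a ∈ I) (h : DepthGE A (A ⧸ (I ⊔ Ideal.span {x})) k) :
    DepthGE A (A ⧸ I) (k + 1) := by
  have : Nontrivial (A ⧸ I) := Ideal.Quotient.nontrivial_iff.2 hI
  have : Nontrivial (A ⧸ (I ⊔ Ideal.span {x})) := by
    refine Ideal.Quotient.nontrivial_iff.2
      (ne_top_of_le_ne_top (maximalIdeal.isMaximal A).ne_top ?_)
    exact sup_le (le_maximalIdeal hI) ((Ideal.span_singleton_le_iff_mem _).2 hx)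
  obtain ⟨rs, hlen, hm, hrs⟩ := depth_exists h
  have h1 := DepthGE.of_isRegular (M := A ⧸ I) (rs := x :: rs) (fun r hr => by
    rcases List.mem_cons.1 hr with rfl | hr
    · exact hx
    · exact hm r hr)
    (IsRegular.cons (smulRegular_iff.2 hreg) (((quotEquiv I x).isRegular_congr rs).2 hrs))
  rwa [List.length_cons, hlen] at h1

/-- Lifting a prime complete intersection along a regular element. -/
theorem dom_lift (φ : B →+* A) (hφ : Function.Surjective φ) {x : B}
    (hker : RingHom.ker φ = Ideal.span {x}) (hxreg : ∀ b, x * b = 0 → b = 0) {n d : ℕ}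
    (hA : DepthGE A A n) (fs : List B) (hd : d + fs.length = n)
    (hp : (Ideal.ofList (fs.map φ)).IsPrime)
    (hdim : ringKrullDim (A ⧸ Ideal.ofList (fs.map φ)) = d) :
    (Ideal.ofList fs).IsPrime ∧ (∀ b, x * b ∈ Ideal.ofList fs → b ∈ Ideal.ofList fs) ∧
      ringKrullDim (B ⧸ Ideal.ofList fs) = (d + 1 : ℕ) ∧
      DepthGE B (B ⧸ Ideal.ofList fs) (d + 1) ∧ IsWeaklyRegular B fs := by
  have hx : x ∈ maximalIdeal B := by
    refine (mem_max_iff φ hφ).1 ?_
    have h1 : x ∈ RingHom.ker φ := hker ▸ Ideal.mem_span_singleton_self x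
    rw [(RingHom.mem_ker).1 h1]
    exact zero_mem _
  have hcomap : (Ideal.ofList (fs.map φ)).comap φ = Ideal.ofList fs ⊔ Ideal.span {x} := by
    rw [← Ideal.map_ofList, Ideal.comap_map_of_surjective φ hφ, ← hker]
    rfl
  have hp' : (Ideal.ofList fs ⊔ Ideal.span {x}).IsPrime := hcomap ▸ hp.comap φ
  have hI : Ideal.ofList fs ≠ ⊤ := ne_top_of_le_ne_top hp'.ne_top le_sup_left
  have hm : ∀ f ∈ fs, f ∈ maximalIdeal B := fun f hf =>
    le_maximalIdeal hI (Ideal.subset_span hf)
  have hdim' : ringKrullDim (B ⧸ (Ideal.ofList fs ⊔ Ideal.span {x})) = d := by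
    rw [← hcomap, ringKrullDim_eq_of_ringEquiv (comapEquiv φ hφ _), hdim]
  have hB : DepthGE B (B ⧸ (⊥ : Ideal B)) (n + 1) := by
    refine depth_unstep bot_ne_top hx (fun a ha => hxreg a ha) ?_
    have h1 := (depth_comap_iff φ hφ bot_ne_top).2 (depth_bot_iff.2 hA)
    have h2 : (⊥ : Ideal A).comap φ = ⊥ ⊔ Ideal.span {x} := by rw [bot_sup_eq, ← hker]; rfl
    rwa [h2] at h1
  have hup : ¬ ((d + 1 + 1 : ℕ) : WithBot ℕ∞) ≤ ringKrullDim (B ⧸ Ideal.ofList fs) := by
    intro h1
    have h2 := dimGE_sup hx h1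
    rw [hdim'] at h2
    have h3 : d + 1 ≤ d := by exact_mod_cast h2
    omega
  obtain ⟨h1, h2⟩ := depth_ofList fs (I := ⊥) (k := d + 1) bot_ne_top hm
    (by rw [show d + 1 + fs.length = n + 1 by omega]; exact hB)
    (fun h3 => hup (dimGE_mono le_sup_right h3))
  rw [bot_sup_eq] at h1
  have hreg : ∀ b, x * b ∈ Ideal.ofList fs → b ∈ Ideal.ofList fs := by
    refine nzd_of_dim h1 fun h3 => ?_
    rw [hdim'] at h3
    have h4 : d + 1 ≤ d := by exact_mod_cast h3
    omega
  refine ⟨isPrime_of_sup hx hreg hp', hreg, le_antisymm (dim_le_of_not hup) ?_, h1,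
    ((Submodule.quotEquivOfEqBot (⊥ : Ideal B) rfl).isWeaklyRegular_congr fs).1 h2⟩
  have : Nontrivial (B ⧸ Ideal.ofList fs) := Ideal.Quotient.nontrivial_iff.2 hI
  obtain ⟨P, hP⟩ := associatedPrimes.nonempty B (B ⧸ Ideal.ofList fs)
  exact dimGE_mono (le_of_ass hP) (ass_dim h1 hP)

/-- Systems of parameters of a Cohen-Macaulay quotient are regular sequences. -/
theorem sop_regular {I : Ideal A} (hI : I ≠ ⊤) (ys : List A) (h : DepthGE A (A ⧸ I) ys.length)
    (hm : ∀ y ∈ ys, y ∈ maximalIdeal A)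
    (hs : ∀ Q : Ideal A, Q.IsPrime → I ≤ Q → (∀ y ∈ ys, y ∈ Q) → Q = maximalIdeal A) :
    IsWeaklyRegular (A ⧸ I) ys := by
  have : Nontrivial (A ⧸ I) := Ideal.Quotient.nontrivial_iff.2 hI
  refine isWeaklyRegular_of_depthGE ys (A ⧸ I) hm h fun Q hQ h1 h2 => hs Q hQ ?_ h2
  rwa [Ideal.annihilator_quotient] at h1

end transfer

section power

theorem ofList_ofFn {A : Type u} [CommRing A] {c : ℕ} (f : Fin c → A) :
    Ideal.ofList (List.ofFn f) = Ideal.span (Set.range f) := by
  unfold Ideal.ofList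
  congr 1
  ext a
  exact List.mem_ofFn' f a

variable {F : Type u} [Field F] {σ : Type} [Finite σ]

theorem depth_power : DepthGE (MvPowerSeries σ F) (MvPowerSeries σ F) (Nat.card σ) :=
  depth_ringEquiv (MvPowerSeries.renameEquiv F (Finite.equivFin σ)).toRingEquiv
    depthGE_powerSeries

omit [Finite σ] in
theorem mem_max_power {f : MvPowerSeries σ F} :
    f ∈ maximalIdeal (MvPowerSeries σ F) ↔ MvPowerSeries.constantCoeff f = 0 := by
  rw [mem_maximalIdeal, mem_nonunits_iff, MvPowerSeries.isUnit_iff_constantCoeff,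
    isUnit_iff_ne_zero, not_not]

/-- DOM: the primality criterion in `F⟦X⟧`. -/
theorem dom_power {c : ℕ} (f : Fin c → MvPowerSeries σ F)
    (hf : ∀ i, MvPowerSeries.constantCoeff (f i) = 0)
    (hyp : ∀ P : Ideal (MvPowerSeries σ F), P.IsPrime → Ideal.span (Set.range f) ≤ P →
      ringKrullDim (MvPowerSeries σ F ⧸ P) + (c + 2 : ℕ) ≤ Nat.card σ ∨
      (ringKrullDim (MvPowerSeries σ F ⧸ P) + c ≤ Nat.card σ ∧
        ∃ Q : Ideal (MvPowerSeries σ F), Q.IsPrime ∧ Ideal.span (Set.range f) ≤ Q ∧ Q ≤ P ∧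
          ∃ g, g ∉ P ∧ ∀ q ∈ Q, g * q ∈ Ideal.span (Set.range f))) :
    ∃ d : ℕ, d + c = Nat.card σ ∧ (Ideal.span (Set.range f)).IsPrime ∧
      ringKrullDim (MvPowerSeries σ F ⧸ Ideal.span (Set.range f)) = d ∧
      DepthGE (MvPowerSeries σ F) (MvPowerSeries σ F ⧸ Ideal.span (Set.range f)) d ∧
      IsWeaklyRegular (MvPowerSeries σ F) (List.ofFn f) := by
  have h := dom_list depth_power (List.ofFn f) (fun r hr => by
    obtain ⟨i, rfl⟩ := (List.mem_ofFn' _ _).1 hr
    exact mem_max_power.2 (hf i)) (by rw [ofList_ofFn, List.length_ofFn]; exact hyp)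
  rwa [ofList_ofFn, List.length_ofFn] at h

variable {O : Type u} [CommRing O]

omit [Finite σ] in
theorem map_surj (ψ : O →+* F) (hψ : Function.Surjective ψ) :
    Function.Surjective (MvPowerSeries.map (σ := σ) ψ) := by
  intro g
  refine ⟨fun n => Function.surjInv hψ (MvPowerSeries.coeff n g), ?_⟩
  ext n
  exact (MvPowerSeries.coeff_map ψ n _).trans (Function.surjInv_eq hψ _)

omit [Finite σ] in
theorem ker_map (ψ : O →+* F) {π : O} (hker : RingHom.ker ψ = Ideal.span {π}) :
    RingHom.ker (MvPowerSeries.map (σ := σ) ψ) = Ideal.span {MvPowerSeries.C π} := by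
  ext g
  rw [RingHom.mem_ker, Ideal.mem_span_singleton']
  constructor
  · intro hg
    have h1 : ∀ n, ∃ a, a * π = MvPowerSeries.coeff n g := by
      intro n
      rw [← Ideal.mem_span_singleton', ← hker, RingHom.mem_ker, ← MvPowerSeries.coeff_map, hg,
        map_zero]
    choose a ha using h1
    refine ⟨a, ?_⟩
    ext n
    exact (MvPowerSeries.coeff_mul_C n _ π).trans (ha n)
  · rintro ⟨a, rfl⟩
    have h1 : ψ π = 0 := by
      rw [← RingHom.mem_ker, hker]
      exact Ideal.mem_span_singleton_self π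
    rw [map_mul, MvPowerSeries.map_C, h1, map_zero, mul_zero]

/-- DOM over `O`: if the reduction modulo `π` is a prime complete intersection, so is the lift,
and it is flat over `O`. -/
theorem dom_power_lift [IsLocalRing O] [IsNoetherianRing O] (ψ : O →+* F)
    (hψ : Function.Surjective ψ) {π : O} (hker : RingHom.ker ψ = Ideal.span {π})
    (hπ : ∀ a, π * a = 0 → a = 0) {c d : ℕ} (f : Fin c → MvPowerSeries σ O)
    (hd : d + c = Nat.card σ)
    (hp : (Ideal.span (Set.range fun i => MvPowerSeries.map ψ (f i))).IsPrime)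
    (hdim : ringKrullDim (MvPowerSeries σ F ⧸
      Ideal.span (Set.range fun i => MvPowerSeries.map ψ (f i))) = d) :
    (Ideal.span (Set.range f)).IsPrime ∧
      (∀ b, MvPowerSeries.C π * b ∈ Ideal.span (Set.range f) → b ∈ Ideal.span (Set.range f)) ∧
      ringKrullDim (MvPowerSeries σ O ⧸ Ideal.span (Set.range f)) = (d + 1 : ℕ) ∧
      DepthGE (MvPowerSeries σ O) (MvPowerSeries σ O ⧸ Ideal.span (Set.range f)) (d + 1) ∧
      IsWeaklyRegular (MvPowerSeries σ O) (List.ofFn f) := by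
  have h0 : Ideal.ofList ((List.ofFn f).map (MvPowerSeries.map ψ)) =
      Ideal.span (Set.range fun i => MvPowerSeries.map ψ (f i)) := by
    rw [List.map_ofFn, ofList_ofFn]
    rfl
  have h := dom_lift (MvPowerSeries.map (σ := σ) ψ) (map_surj ψ hψ) (ker_map ψ hker)
    (fun b hb => by
      ext n
      have h1 := congrArg (MvPowerSeries.coeff n) hb
      rw [MvPowerSeries.coeff_C_mul] at h1
      exact hπ _ h1)
    depth_power (List.ofFn f) (d := d) (by rw [List.length_ofFn]; exact hd)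
    (by rw [h0]; exact hp) (by rw [h0]; exact hdim)
  rwa [ofList_ofFn] at h

end power

end Vale.Agent.P022D.CA
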