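import Vale.Agent.P022D.CA.Blocks

/-!
# P022: the dichotomy at one prime, with blocks which are only smooth at this prime
-/

open IsLocalRing MvPowerSeries RingTheory.Sequence

namespace Vale.Agent.P022D.CA

variable {F σ β : Type} [Field F] [Fintype σ] [Fintype β] {τ ι : β → Type}
  [∀ b, Fintype (τ b)] [∀ b, Fintype (ι b)]

theorem blocks_at (e : (Σ b, τ b) ↪ σ) (f : ∀ b, ι b → MvPowerSeries (τ b) F)
    {c : ℕ} (q : Fin c ≃ Σ b, ι b)
    (P : Ideal (MvPowerSeries σ F)) [P.IsPrime] (hP : ∀ p, eqs e f p ∈ P)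
    (K : Type) [Field K] [Algebra (MvPowerSeries σ F ⧸ P) K]
    [IsFractionRing (MvPowerSeries σ F ⧸ P) K]
    (hb : ∀ b, (∀ l : ι b → K,
      (∀ t, ∑ i, l i * gn P K (pderiv F (emb e b t) (eqs e f ⟨b, i⟩)) = 0) → ∀ i, l i = 0) ∨
      ∃ s : Finset K, s.card + Fintype.card (ι b) + 2 ≤ Fintype.card (τ b) ∧
        ∀ D : Derivation ℤ K K, (∀ y ∈ s, D y = 0) →
          ∀ t, D (gn P K (X (emb e b t))) = 0) :
    ringKrullDim (MvPowerSeries σ F ⧸ P) + c + 2 ≤ Nat.card σ ∨
      (ringKrullDim (MvPowerSeries σ F ⧸ P) + c ≤ Nat.card σ ∧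
        ∃ Q : Ideal (MvPowerSeries σ F), Q.IsPrime ∧
          Ideal.span (Set.range fun i => eqs e f (q i)) ≤ Q ∧ Q ≤ P ∧
          ∃ g, g ∉ P ∧ ∀ y ∈ Q, g * y ∈ Ideal.span (Set.range fun i => eqs e f (q i))) := by
  classical
  obtain ⟨bv, hbv1, hbv2⟩ : ∃ bv : σ → Option β, (∀ b t, bv (emb e b t) = some b) ∧
      ∀ j b, bv j = some b → ∃ t, emb e b t = j := by
    refine ⟨fun j => if h : ∃ p, e p = j then some h.choose.1 else none, fun b t => ?_,
      fun j b hj => ?_⟩
    · have h : ∃ p, e p = emb e b t := ⟨⟨b, t⟩, rfl⟩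
      have h1 : h.choose = ⟨b, t⟩ := e.injective h.choose_spec
      simp only [dif_pos h, h1]
    · by_cases h : ∃ p, e p = j
      · simp only [dif_pos h, Option.some.injEq] at hj
        subst hj
        exact ⟨h.choose.2, h.choose_spec⟩
      · simp only [dif_neg h] at hj
        exact absurd hj.symm (Option.some_ne_none _)
  refine Pdeg.dichotomy (gn P K) P (gn_ker P K) (gn_frac P K)
    (fun i => eqs e f (q i)) (fun i => (gn_ker P K _).1 (hP _)) bv (fun i => some (q i).1)
    (fun i j hj => ?_) (fun b => ?_)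
  · rw [eqs, pderiv_rename_out, map_zero]
    rintro ⟨t, rfl⟩
    exact hj (hbv1 _ t)
  · cases b with
    | none => exact Or.inl fun l _ i => absurd i.2 (Option.some_ne_none _)
    | some b =>
      let r : ι b ≃ {i : Fin c // some (q i).1 = some b} := Equiv.ofBijective
        (fun i => ⟨q.symm ⟨b, i⟩, by rw [Equiv.apply_symm_apply]⟩) (by
          constructor
          · intro i i' h
            have h1 : (⟨b, i⟩ : Σ b, ι b) = ⟨b, i'⟩ := q.symm.injective (congrArg Subtype.val h)
            exact eq_of_heq (Sigma.mk.inj h1).2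
          · rintro ⟨i, hi⟩
            have h1 : (q i).1 = b := Option.some.inj hi
            subst h1
            exact ⟨(q i).2, Subtype.ext (q.symm_apply_apply i)⟩)
      have hr : ∀ i, q (r i).1 = ⟨b, i⟩ := fun i => q.apply_symm_apply _
      let v : τ b ≃ {j : σ // bv j = some b} := Equiv.ofBijective
        (fun t => ⟨emb e b t, hbv1 b t⟩) (by
          constructor
          · intro t t' h
            exact (emb e b).injective (congrArg Subtype.val h)
          · rintro ⟨j, hj⟩
            obtain ⟨t, rfl⟩ := hbv2 j b hj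
            exact ⟨t, rfl⟩)
      rcases hb b with h | ⟨s, hs, h⟩
      · refine Or.inl fun l hl i => ?_
        have h1 := h (fun i => l (r i)) (fun t => by
          rw [← hl (emb e b t) (hbv1 b t), finsum_eq_sum_of_fintype, ← r.sum_comp]
          refine Finset.sum_congr rfl fun i _ => ?_
          rw [hr]) (r.symm i)
        rwa [Equiv.apply_symm_apply] at h1
      · refine Or.inr ⟨s, ?_, fun D hD j hj => ?_⟩
        · rw [← Nat.card_congr r, ← Nat.card_congr v, Nat.card_eq_fintype_card,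
            Nat.card_eq_fintype_card]
          exact hs
        · obtain ⟨t, rfl⟩ := hbv2 j b hj
          exact h D hD t

theorem pt_blocks (e : (Σ b, τ b) ↪ σ) (f : ∀ b, ι b → MvPowerSeries (τ b) F)
    (P : Ideal (MvPowerSeries σ F)) [P.IsPrime] (hP : ∀ p, eqs e f p ∈ P)
    (h : ∀ b, BlkPt (f b) ∨ ∀ l : ι b → FractionRing (MvPowerSeries σ F ⧸ P),
      (∀ t, ∑ i, l i * Pdeg.gen P (rename (emb e b) (pderiv F t (f b i))) = 0) → ∀ i, l i = 0) :
    ringKrullDim (MvPowerSeries σ F ⧸ P) + (Fintype.card (Σ b, ι b) : ℕ) + 2 ≤ Nat.card σ ∨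
      (ringKrullDim (MvPowerSeries σ F ⧸ P) + (Fintype.card (Σ b, ι b) : ℕ) ≤ Nat.card σ ∧
        ∃ Q : Ideal (MvPowerSeries σ F), Q.IsPrime ∧
          Ideal.span (Set.range (eqs e f)) ≤ Q ∧ Q ≤ P ∧
          ∃ g, g ∉ P ∧ ∀ y ∈ Q, g * y ∈ Ideal.span (Set.range (eqs e f))) := by
  have h1 := blocks_at e f (Fintype.equivFin (Σ b, ι b)).symm P hP
    (FractionRing (MvPowerSeries σ F ⧸ P)) (fun b => by
      rcases h b with h2 | h2
      · exact blk_at e f b h2 P hP _
      · refine Or.inl fun l hl => h2 l fun t => ?_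
        rw [← hl t]
        refine Finset.sum_congr rfl fun i _ => ?_
        congr 1
        exact congrArg (Pdeg.gen P) (pderiv_rename (emb e b) t (f b i)).symm)
  rwa [range_eqs (eqs e f)] at h1

end Vale.Agent.P022D.CA
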